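import Crest.Agent.X262.St91.Defs
import Crest.Agent.X262.Brg.Main
import Crest.Agent.X262.Lin62.Bez
import Crest.Agent.X262.Pf19.Defs
import Crest.Agent.X262.Brg.Hyp0
import Crest.Agent.X277.BD.Cyc
import Crest.Agent.X262.Geo.Dv
import Crest.Agent.X262.Geo.Val
import Crest.Agent.X262.Wd54.Gx
import Crest.Agent.X262.Gal71.Desc
import Crest.Agent.X277.GF.Kun
import Crest.Agent.X277.Cns.Lift
import Crest.Agent.X262.Fano.Rho

-- ▼ part X262/StOn/Sp
section

/-!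
# Row 262, G4 / START (helper29), part 1: specialisation to complex points

* `exists_lp`, `exists_lp0`, `zero_of_sp` : complex points along a valuation ring;
* `In L x`, `ons_sp`, `rel_sp`            : points and relations specialise;
* `ux`, `uP`, `on`, `rel`                 : the properties of a quartic model over any field;
* `exists_dom_le`, `exists_gen`           : a tuple with one value at a point is regular there.
-/

set_option autoImplicit false
set_option linter.style.haveILetI false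

open MvPolynomial

noncomputable section

namespace Crest.Agent.X262.StOn

open Crest.Agent.X277 Crest.Agent.X277.Lef Crest.Agent.X277.AN.G1 Crest.Agent.X277.BD
open Crest.Agent.X277.BD.Br
open Crest.Agent.X277.BD.Cyc (Rf plV lnr_plV)
open Crest.Agent.X277.Cns (Ov)
open Crest.Agent.X262.St91

variable {F : Type} [Field F] [Algebra ℂ F]

/-- the residue map of a valuation ring -/
def plc (V : RZ ℂ F) : Plc F (Rf V) where
  O := Cns.kSub V.2
  π := (plV V).r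
  π_add := Pl.r_add (p := plV V)
  π_mul := Pl.r_mul (p := plV V)
  π_alg := lnr_plV V
  π_off h := dif_neg h
  inv_mem h := RZ.le_one_iff.1 (by
    have h1 : V.v _ = 1 := Pl.r_ne_zero_iff.1 h
    rw [map_inv₀, h1, inv_one])

theorem exists_pt (A : Type) [CommRing A] [Nontrivial A] [Algebra ℂ A] [Algebra.FiniteType ℂ A] :
    Nonempty (A →ₐ[ℂ] ℂ) := by
  obtain ⟨M, hM⟩ := Ideal.exists_maximal A
  let _ : Field (A ⧸ M) := Ideal.Quotient.field M
  have : Module.Finite ℂ (A ⧸ M) := finite_of_finite_type_of_isJacobsonRing _ _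
  exact ⟨(IsAlgClosed.lift (R := ℂ)).comp (Ideal.Quotient.mkₐ ℂ M)⟩

theorem exists_lp0 {s : Set F} (hs : s.Finite) :
    ∃ L : LP F, ∀ f ∈ s, f ∈ L.O ∧ (f ≠ 0 → L.v f ≠ 0) := by
  haveI : Algebra.FiniteType ℂ (Algebra.adjoin ℂ (s ∪ Inv.inv '' s)) :=
    .adjoin_of_finite (hs.union (hs.image _))
  obtain ⟨χ⟩ := exists_pt (Algebra.adjoin ℂ (s ∪ Inv.inv '' s))
  refine ⟨lpAt χ, fun f hf => ?_⟩
  have h1 : f ∈ (lpAt χ).O := le_lpAt χ (Algebra.subset_adjoin (Or.inl hf))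
  exact ⟨h1, fun h0 => LP.ne_of_inv_mem h1 h0
    (le_lpAt χ (Algebra.subset_adjoin (Or.inr ⟨f, hf, rfl⟩)))⟩

theorem exists_lp (V : RZ ℂ F) {s : Set F} (hs : s.Finite) :
    ∃ L : LP F, (∀ f, V.v f < 1 → f ∈ L.O ∧ L.v f = 0) ∧
      ∀ f ∈ s, f ∈ V.1 → f ∈ L.O ∧ (V.v f = 1 → L.v f ≠ 0) := by
  obtain ⟨L, hL⟩ := exists_lp0 (hs.image (plV V).r)
  refine ⟨L.comap (plc V), fun f hf => ?_, fun f hf h => ?_⟩
  · have h1 : f ∈ V.1 := RZ.le_one_iff.1 hf.le
    have h2 : (plc V).π f = 0 := (Pl.r_eq_zero (p := plV V) h1).2 hf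
    exact ⟨⟨h1, h2 ▸ zero_mem _⟩, by rw [LP.comap_v, h2, LP.v_zero]⟩
  · obtain ⟨h1, h2⟩ := hL _ ⟨f, hf, rfl⟩
    exact ⟨⟨h, h1⟩, fun h3 => h2 ((Pl.r_ne_zero_iff (p := plV V)).2 h3)⟩

theorem zero_of_sp {s : Set F} (hs : s.Finite) {w : F}
    (h : ∀ L : LP F, (∀ f ∈ s, f ∈ L.O ∧ (f ≠ 0 → L.v f ≠ 0)) → L.v w = 0) : w = 0 := by
  by_contra h0
  obtain ⟨L, hL⟩ := exists_lp0 (hs.insert w)
  exact (hL w (Or.inl rfl)).2 h0 (h L fun f hf => hL f (Or.inr hf))

/-! ### vectors -/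

section Vec

variable {ι κ : Type} {L : LP F}

/-- all coordinates are regular -/
def In (L : LP F) (x : ι → F) : Prop := ∀ i, x i ∈ L.O

/-- the value -/
def vl (L : LP F) (x : ι → F) : ι → ℂ := fun i => L.v (x i)

theorem vl_ne {s : Set F} (hL : ∀ f ∈ s, f ∈ L.O ∧ (f ≠ 0 → L.v f ≠ 0)) {x : ι → F}
    (hx : Set.range x ⊆ s) (h0 : x ≠ 0) : vl L x ≠ 0 := by
  obtain ⟨i, hi⟩ := Function.ne_iff.1 h0
  exact Function.ne_iff.2 ⟨i, (hL _ (hx ⟨i, rfl⟩)).2 hi⟩

theorem in_of {s : Set F} (hL : ∀ f ∈ s, f ∈ L.O ∧ (f ≠ 0 → L.v f ≠ 0)) {x : ι → F}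
    (hx : Set.range x ⊆ s) : In L x := fun i => (hL _ (hx ⟨i, rfl⟩)).1

theorem in_ln [Fintype κ] (π : ι → κ → ℂ) {P : κ → F} (hP : In L P) : In L (ln π P) :=
  fun _ => sum_mem fun j _ => mul_mem (algebraMap_mem _ _) (hP j)

theorem vl_ln [Fintype κ] (π : ι → κ → ℂ) {P : κ → F} (hP : In L P) :
    vl L (ln π P) = ln π (vl L P) := funext fun i => by
  rw [vl, ln, ln, LP.v_sum _ fun j _ => mul_mem (algebraMap_mem _ _) (hP j)]
  exact Finset.sum_congr rfl fun j _ => by rw [L.v_mul (algebraMap_mem _ _) (hP j), L.v_alg]; rfl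

theorem ln_smul [Fintype κ] (π : ι → κ → ℂ) (c : F) (P : κ → F) : ln π (c • P) = c • ln π P :=
  funext fun i => by simp [ln, Finset.mul_sum, mul_left_comm c]

theorem ln_sub [Fintype κ] (π : ι → κ → ℂ) (P Q : κ → F) : ln π (P - Q) = ln π P - ln π Q :=
  funext fun i => by simp [ln, mul_sub]

theorem map_ln {E : Type} [Field E] [Algebra ℂ E] (α : F →ₐ[ℂ] E) [Fintype κ] (π : ι → κ → ℂ)
    (P : κ → F) (i : ι) : α (ln π P i) = ln π (fun j => α (P j)) i := by simp [ln]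

theorem v_wd {x y : ι → F} (hx : In L x) (hy : In L y) (i j : ι) :
    L.v (x i * y j - x j * y i) = vl L x i * vl L y j - vl L x j * vl L y i := by
  rw [LP.v_sub (mul_mem (hx i) (hy j)) (mul_mem (hx j) (hy i)), L.v_mul (hx i) (hy j),
    L.v_mul (hx j) (hy i)]
  rfl

variable {om : Fin 6 → I2 → ℂ} {P : I2 → F} {x : Fin 4 → F} {r : ℕ} {B : Fin r → Fin 4 → I2 → ℂ}

theorem v_plk (hP : In L P) (a b c d e f : I2) :
    L.v (P a * P b - P c * P d + P e * P f) =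
      vl L P a * vl L P b - vl L P c * vl L P d + vl L P e * vl L P f := by
  rw [L.v_add (sub_mem (mul_mem (hP _) (hP _)) (mul_mem (hP _) (hP _))) (mul_mem (hP _) (hP _)),
    LP.v_sub (mul_mem (hP _) (hP _)) (mul_mem (hP _) (hP _)), L.v_mul (hP _) (hP _),
    L.v_mul (hP _) (hP _), L.v_mul (hP _) (hP _)]
  rfl

theorem ons_sp (h : OnS om P) (hP : In L P) (h0 : vl L P ≠ 0) : OnS om (vl L P) :=
  ⟨h0, fun i j => by rw [vl, h.skew, LP.v_neg (hP _)]; rfl,
    fun i j k l => by rw [← v_plk hP, h.plk, LP.v_zero],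
    by rw [← vl_ln om hP, h.lin]; exact funext fun _ => L.v_zero⟩

theorem v_rel (hx : In L x) (hP : In L P) (b : Fin 4 → I2 → ℂ) :
    L.v (∑ i, x i * ln b P i) = ∑ i, vl L x i * ln b (vl L P) i := by
  rw [LP.v_sum _ fun i _ => mul_mem (hx i) (in_ln b hP i), ← vl_ln b hP]
  exact Finset.sum_congr rfl fun i _ => L.v_mul (hx i) (in_ln b hP i)

theorem rel_sp (h : Rel B x P) (hx : In L x) (hP : In L P) : Rel B (vl L x) (vl L P) :=
  fun a => by rw [← v_rel hx hP, h a, LP.v_zero]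

theorem ons_smul (h : OnS om P) {c : F} (hc : c ≠ 0) : OnS om (c • P) :=
  ⟨smul_ne_zero hc h.ne, fun i j => by simp [h.skew i j], fun i j k l => by
    simp only [Pi.smul_apply, smul_eq_mul]
    linear_combination c * c * h.plk i j k l, by rw [ln_smul, h.lin, smul_zero]⟩

theorem rel_smul (h : Rel B x P) (c c' : F) : Rel B (c • x) (c' • P) := fun a => by
  have h1 := h a
  simp only [ln_smul, Pi.smul_apply, smul_eq_mul]
  rw [← mul_zero (c * c'), ← h1, Finset.mul_sum]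
  exact Finset.sum_congr rfl fun i _ => by ring

section Map

variable {E : Type} [Field E] [Algebra ℂ E] (α : F →ₐ[ℂ] E)

theorem ons_map (h : OnS om P) : OnS om fun i => α (P i) :=
  ⟨fun h0 => h.ne (funext fun i => (map_eq_zero α).1 (congrFun h0 i)),
    fun i j => by rw [h.skew, map_neg],
    fun i j k l => by simpa using congrArg α (h.plk i j k l),
    funext fun i => by rw [← map_ln, h.lin]; simp⟩

theorem rel_map (h : Rel B x P) : Rel B (fun i => α (x i)) fun i => α (P i) := fun a => by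
  simpa [map_ln] using congrArg α (h a)

end Map

/-! ### quartic models over a field -/

variable (M : QM om)

theorem ux {x x' : Fin 4 → F} (h : OnS om P) (h1 : Rel M.B x P) (h2 : Rel M.B x' P) : Par x x' :=
  fun i j => sub_eq_zero.1 (zero_of_sp (((Set.finite_range x).union (Set.finite_range x')).union
    (Set.finite_range P)) fun L hL => by
      have a1 : In L x := in_of hL fun _ h => Or.inl (Or.inl h)
      have a2 : In L x' := in_of hL fun _ h => Or.inl (Or.inr h)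
      have a3 : In L P := in_of hL fun _ h => Or.inr h
      rw [v_wd a1 a2, sub_eq_zero]
      exact M.ux _ _ _ (ons_sp h a3 (vl_ne hL (fun _ h => Or.inr h) h.ne)) (rel_sp h1 a1 a3)
        (rel_sp h2 a2 a3) i j)

theorem uP {P' : I2 → F} (h0 : x ≠ 0) (h : OnS om P) (h' : OnS om P') (h1 : Rel M.B x P)
    (h2 : Rel M.B x P') : Par P P' :=
  fun i j => sub_eq_zero.1 (zero_of_sp (((Set.finite_range x).union (Set.finite_range P')).union
    (Set.finite_range P)) fun L hL => by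
      have a1 : In L x := in_of hL fun _ h => Or.inl (Or.inl h)
      have a2 : In L P' := in_of hL fun _ h => Or.inl (Or.inr h)
      have a3 : In L P := in_of hL fun _ h => Or.inr h
      rw [v_wd a3 a2, sub_eq_zero]
      exact M.uP _ _ _ (vl_ne hL (fun _ h => Or.inl (Or.inl h)) h0)
        (ons_sp h a3 (vl_ne hL (fun _ h => Or.inr h) h.ne))
        (ons_sp h' a2 (vl_ne hL (fun _ h => Or.inl (Or.inr h)) h'.ne)) (rel_sp h1 a1 a3)
        (rel_sp h2 a1 a2) i j)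

theorem on (h : OnS om P) : aeval (ln M.π P) M.Γ = 0 :=
  zero_of_sp (Set.finite_range P) fun L hL => by
    have a3 : In L P := in_of hL subset_rfl
    rw [LP.v_aeval (in_ln M.π a3)]
    exact (congrArg (eval · M.Γ) (vl_ln M.π a3)).trans
      (M.on _ (ons_sp h a3 (vl_ne hL subset_rfl h.ne)))

theorem rel (h : OnS om P) : Rel M.B (ln M.π P) P := fun a =>
  zero_of_sp (Set.finite_range P) fun L hL => by
    have a3 : In L P := in_of hL subset_rfl
    rw [v_rel (in_ln M.π a3) a3, vl_ln M.π a3]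
    exact M.rel _ (ons_sp h a3 (vl_ne hL subset_rfl h.ne)) a

end Vec

/-! ### points of a model -/

variable {Q : PModel ℂ F} {x : Pts Q}

theorem exists_dom_le {V : RZ ℂ F} (hx : Ov x V.1) : ∃ W : RZ ℂ F, W.1 ≤ V.1 ∧ Ov x W.1 ∧
    ∀ f ∈ (lp x).O, W.v f = 1 → ev f x ≠ 0 := by
  let ρ : (lp x).O →+* Rf V := (plV V).φ.comp
    (((lp x).O.val : (lp x).O →+* F).codRestrict V.1.toSubring fun f => hx f f.2)
  have hρ : ∀ f : (lp x).O, ρ f = (plV V).r f := fun f => ((plV V).r_eq (hx f f.2)).symm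
  haveI : (lp x).mx.IsPrime := RingHom.ker_isPrime _
  obtain ⟨W, h1, h2⟩ := Cns.exists_val ρ (lp x).mx fun f hf => by_contra fun h =>
    (Pl.r_ne_zero_iff (p := plV V)).2 (ev_ne_iff'.1 h _ hx) ((hρ f).symm.trans hf)
  have hW : Cns.KV ℂ W := fun c => by
    have h3 := h1 (algebraMap ℂ _ c)
    rwa [hρ, Subalgebra.coe_algebraMap, lnr_plV V c] at h3
  have h3 : Ov x ((plV V).cm ⟨W, hW⟩).1 := fun f hf => ⟨hx f hf, hρ ⟨f, hf⟩ ▸ h1 ⟨f, hf⟩⟩
  refine ⟨(plV V).cm ⟨W, hW⟩, (plV V).cm_le _, h3, fun f hf h => ?_⟩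
  have h4 : ((plV V).cm ⟨W, hW⟩).v f = ((plV V).cm ⟨W, hW⟩).v 1 := h.trans (map_one _).symm
  have h5 := (Pl.v_eq_iff ((RZ.eq_of_le ((plV V).cm_le ⟨W, hW⟩) h4).trans (map_one _)) (map_one _)).1 h4
  rw [Pl.r_one, map_one] at h5
  exact (h2 ⟨f, hf⟩).1 (Cns.un_iff_val.2 (hρ ⟨f, hf⟩ ▸ h5))

theorem dom_of {W : RZ ℂ F} (h1 : Ov x W.1) (h2 : ∀ f ∈ (lp x).O, W.v f = 1 → ev f x ≠ 0)
    {L : LP F} (hL : ∀ f, W.v f < 1 → f ∈ L.O ∧ L.v f = 0) : (lp x).Dom L := by
  have key : ∀ f ∈ (lp x).O, f ∈ L.O ∧ L.v f = ev f x := fun f hf => by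
    have h3 : f - algebraMap ℂ F (ev f x) ∈ (lp x).O := sub_mem hf (algebraMap_mem _ _)
    obtain ⟨h4, h5⟩ := hL _ (lt_of_le_of_ne (RZ.le_one_iff.2 (h1 _ h3)) fun h => h2 _ h3 h (by
      rw [ev, LP.v_sub hf (algebraMap_mem _ _), LP.v_alg, sub_self]))
    have h6 : f ∈ L.O := by simpa using add_mem h4 (algebraMap_mem L.O (ev f x))
    rw [LP.v_sub h6 (algebraMap_mem _ _), LP.v_alg, sub_eq_zero] at h5
    exact ⟨h6, h5⟩
  exact ⟨fun f hf => (key f hf).1, fun f hf => (key f hf).2⟩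

/-- a tuple which has only one value over the point `x` is regular at `x` -/
theorem exists_gen {ι : Type} [Finite ι] {z : ι → F} (hz : z ≠ 0) (R : (ι → ℂ) → Prop)
    (hu : ∀ a b, R a → R b → Par a b)
    (hR : ∀ (L : LP F) (c : F), (lp x).Dom L → c ≠ 0 → In L (c • z) → vl L (c • z) ≠ 0 →
      R (vl L (c • z))) : ∃ j, z j ≠ 0 ∧ ∀ l, z l / z j ∈ (lp x).O := by
  obtain ⟨i₀, hi₀⟩ := Function.ne_iff.1 hz
  haveI : Nonempty ι := ⟨i₀⟩
  have key : ∀ W : RZ ℂ F, Ov x W.1 → (∀ f ∈ (lp x).O, W.v f = 1 → ev f x ≠ 0) →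
      ∃ j a, z j ≠ 0 ∧ R a ∧ a j = 1 ∧ (∀ l, W.v (z l) ≤ W.v (z j)) ∧
        ∀ l, a l ≠ 0 → W.v (z j) ≤ W.v (z l) := fun W h1 h2 => by
    obtain ⟨j, hj⟩ := Cns.exists_mx z W.1
    have h0 : z j ≠ 0 := fun h => hi₀ (by simpa [h] using hj i₀)
    obtain ⟨L, h3, h4⟩ := exists_lp W (Set.finite_range ((z j)⁻¹ • z))
    have h5 : ∀ l, ((z j)⁻¹ • z) l = z l / z j := fun l => by simp [div_eq_inv_mul]
    have h6 : In L ((z j)⁻¹ • z) := fun l =>
      (h4 _ ⟨l, rfl⟩ (h5 l ▸ (RZ.le_iff h0).1 (hj l))).1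
    have h7 : vl L ((z j)⁻¹ • z) j = 1 := by rw [vl, h5, div_self h0, LP.v_one]
    refine ⟨j, _, h0, hR L _ (dom_of h1 h2 h3) (inv_ne_zero h0) h6
      (Function.ne_iff.2 ⟨j, by simp [h7]⟩), h7, hj, fun l hl => not_lt.1 fun h => hl ?_⟩
    refine (h3 _ ?_).2
    rw [h5, map_div₀]
    exact (div_lt_one₀ (RZ.pos h0)).2 h
  obtain ⟨W₀, h1, h2⟩ := exists_dom x
  obtain ⟨j, a, hj, ha, ha1, -, -⟩ := key W₀ h1 fun f hf => (h2 f hf).1
  refine ⟨j, hj, fun l => mem_lp_iff'.2 fun V hV => ?_⟩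
  obtain ⟨W, h3, h4, h5⟩ := exists_dom_le hV
  obtain ⟨k, b, -, hb, hb1, h6, h7⟩ := key W h4 h5
  refine RZ.le_one_iff.2 (h3 ((RZ.le_iff hj).1 ((h6 l).trans (h7 j fun h0 => ?_))))
  have h8 := hu a b ha hb j k
  rw [ha1, hb1, h0] at h8
  simp at h8

end Crest.Agent.X262.StOn
end
end

-- ▼ part X262/StOn/On
section

/-!
# Row 262, G4 / START (helper29), part 2: the three models are isomorphic

* `on_p`, `on_y`  : the tuples are regular on the quartic models;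
* `dst`           : the chordal distance at a valuation, `dst_le_of_on`, `dst_le_of_ux`;
* `onStmt : St91.OnStmt`.
-/

set_option autoImplicit false
set_option linter.style.haveILetI false
set_option linter.unusedSectionVars false

open MvPolynomial

noncomputable section

namespace Crest.Agent.X262.StOn

open Crest.Agent.X277 Crest.Agent.X277.Lef Crest.Agent.X277.AN.G1 Crest.Agent.X277.BD
open Crest.Agent.X277.BD.Br
open Crest.Agent.X277.Cns (Ov)
open Crest.Agent.X262.Top (Hyp)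
open Crest.Agent.X262.St91

variable {F : Type} [Field F] [Algebra ℂ F] {om : Fin 6 → I2 → ℂ} {p : I2 → F}

theorem inv_smul_apply {ι : Type} (z : ι → F) (c : F) (l : ι) : (c⁻¹ • z) l = z l / c := by
  simp [div_eq_inv_mul]

theorem vl_dom {ι : Type} {L L' : LP F} (h : L.Dom L') {z : ι → F} (hz : In L z) :
    In L' z ∧ vl L' z = vl L z := ⟨fun i => h.le (hz i), funext fun i => h.eq _ (hz i)⟩

theorem in_nrm {ι : Type} {L : LP F} {z : ι → F} {j : ι} (hj : z j ≠ 0)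
    (h : ∀ l, z l / z j ∈ L.O) : In L ((z j)⁻¹ • z) ∧ vl L ((z j)⁻¹ • z) ≠ 0 :=
  ⟨fun l => inv_smul_apply z _ l ▸ h l,
    Function.ne_iff.2 ⟨j, by rw [vl, inv_smul_apply, div_self hj, LP.v_one]; exact one_ne_zero⟩⟩

theorem on_p (M : QM om) (S : Hyp 3 M.Γ F) (h : OnS om p) (hr : Rel M.B S.y p) :
    mxf ℂ p ∈ On S.P := fun x => by
  obtain ⟨i, hi⟩ := exists_pat x
  obtain ⟨h1, h2⟩ := in_nrm (L := lp x) (S.y_ne i) (y_mem hi)
  obtain ⟨j, hj, h3⟩ := exists_gen (x := x) h.ne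
    (fun a => OnS om a ∧ Rel M.B (vl (lp x) ((S.y i)⁻¹ • S.y)) a)
    (fun a b ha hb => M.uP _ a b h2 ha.1 hb.1 ha.2 hb.2) fun L c hd hc h4 h5 =>
      ⟨ons_sp (ons_smul h hc) h4 h5,
        (vl_dom hd h1).2 ▸ rel_sp (rel_smul hr _ c) (vl_dom hd h1).1 h4⟩
  exact ⟨_, at_mxf hj h3⟩

theorem on_y (N : QM om) {Q : PModel ℂ F} (h : OnS om p) (hp : mxf ℂ p ∈ On Q) {t : Fin 4 → F}
    (ht : t ≠ 0) (hr : Rel N.B t p) : mxf ℂ t ∈ On Q := fun x => by
  obtain ⟨i, hi, h0⟩ := gn_of_mem (Function.ne_iff.1 h.ne) hp x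
  obtain ⟨h1, h2⟩ := in_nrm (L := lp x) hi h0
  obtain ⟨j, hj, h3⟩ := exists_gen (x := x) ht (fun a => Rel N.B a (vl (lp x) ((p i)⁻¹ • p)))
    (fun a b ha hb => N.ux a b _ (ons_sp (ons_smul h (inv_ne_zero hi)) h1 h2) ha hb)
    fun L c hd _ h4 _ => (vl_dom hd h1).2 ▸ rel_sp (rel_smul hr c _) h4 (vl_dom hd h1).1
  exact ⟨_, at_mxf hj h3⟩

/-! ### the distance -/

section Dst

variable {L : Type} [Field L] [Algebra ℂ L] {ι : Type} [Fintype ι] {W : RZ ℂ L} {u u' : ι → L}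

/-- the distance of two points of projective space -/
def dst (W : RZ ℂ L) (u u' : ι → L) : W.1.ValueGroup :=
  (mxf ℂ (wd u u')).val W / ((mxf ℂ u).val W * (mxf ℂ u').val W)

theorem val_dgl (α β : F →ₐ[ℂ] L) (z : ι → F) (W : RZ ℂ L) :
    (dgl α β z).val W = (dst W (fun i => α (z i)) fun i => β (z i))⁻¹ := by
  rw [dgl, dst, pb_mxf, pb_mxf, val_sub, val_add, inv_div]

theorem dst_le_iff (hw : wd u u' ≠ 0) {c c' : L} (hc : W.v c = (mxf ℂ u).val W)
    (hc' : W.v c' = (mxf ℂ u').val W) {γ : W.1.ValueGroup} :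
    dst W u u' ≤ γ ↔ ∀ i j, W.v (u i / c * (u' j / c') - u j / c * (u' i / c')) ≤ γ := by
  have h1 : ∀ i j, W.v (u i / c * (u' j / c') - u j / c * (u' i / c')) =
      W.v (wd u u' (i, j)) / ((mxf ℂ u).val W * (mxf ℂ u').val W) := fun i j => by
    rw [← hc, ← hc', ← map_mul, ← map_div₀, wd]
    congr 1
    ring
  have h2 := mul_pos ((mxf ℂ u).val_pos W) ((mxf ℂ u').val_pos W)
  refine ⟨fun h i j => le_trans ?_ h, fun h => ?_⟩
  · rw [h1]
    exact div_le_div_of_nonneg_right (mem_Sec_mxf _ _ W) h2.le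
  · obtain ⟨⟨i, j⟩, h3⟩ := exists_val_mxf (k := ℂ) (Function.ne_iff.1 hw) W
    rw [dst, ← h3, ← h1]
    exact h i j

attribute [irreducible] dst

theorem v_div_le {c : L} (hc : W.v c = (mxf ℂ u).val W) (i : ι) : W.v (u i / c) ≤ 1 := by
  rw [map_div₀, hc]
  exact div_le_one_of_le₀ (mem_Sec_mxf u i W) zero_le

theorem v_mul_le {a b : L} {γ : W.1.ValueGroup} (ha : W.v a ≤ 1) (hb : W.v b ≤ γ) :
    W.v (a * b) ≤ γ := by
  rw [map_mul]
  exact (mul_le_mul' ha hb).trans (one_mul γ).le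

theorem v_sub_le {a b : L} {γ : W.1.ValueGroup} (ha : W.v a ≤ γ) (hb : W.v b ≤ γ) :
    W.v (a - b) ≤ γ := W.v.map_sub_le ha hb

theorem dst_le_one (hw : wd u u' ≠ 0) (W : RZ ℂ L) : dst W u u' ≤ 1 :=
  (dst_le_iff hw (v_gen _ W) (v_gen _ W)).2 fun i j =>
    v_sub_le (v_mul_le (v_div_le (v_gen _ W) i) (v_div_le (v_gen _ W) j))
      (v_mul_le (v_div_le (v_gen _ W) j) (v_div_le (v_gen _ W) i))

theorem v_eq_one {a b : L} (ha : W.v a = 1) (h : W.v (a - b) < 1) : W.v b = 1 := by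
  rw [← ha] at h ⊢
  exact W.v.map_eq_of_sub_lt (by rwa [W.v.map_sub_swap])

theorem same (hw : wd u u' ≠ 0) (hu : u' ≠ 0) (h : dst W u u' < 1) {j : ι}
    (hj : W.v (u j) = (mxf ℂ u).val W) : W.v (u' j) = (mxf ℂ u').val W := by
  obtain ⟨k, hk⟩ := exists_val_mxf (k := ℂ) (Function.ne_iff.1 hu) W
  have h1 := ((dst_le_iff hw hj hk).1 le_rfl j k).trans_lt h
  rw [div_self (ne_of_val hj), div_self (ne_of_val hk), one_mul] at h1
  have h2 := v_eq_one (map_one _) h1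
  have h3 : W.v (u' j / u' k) = 1 := le_antisymm (v_div_le hk j) (not_lt.1 fun h4 => by
    rw [map_mul] at h2
    exact (mul_lt_one_of_nonneg_of_lt_one_right (v_div_le hj k) zero_le h4).ne h2)
  rw [map_div₀, div_eq_one_iff_eq (RZ.ne_zero_iff.2 (ne_of_val hk))] at h3
  exact h3.trans hk

variable (α β : F →ₐ[ℂ] L)

/-- the functions which are Lipschitz for the pair of points -/
def lip (W : RZ ℂ L) (γ : W.1.ValueGroup) : Subalgebra ℂ F where
  carrier := {f | W.v (α f) ≤ 1 ∧ W.v (β f) ≤ 1 ∧ W.v (α f - β f) ≤ γ}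
  mul_mem' {a b} ha hb := ⟨map_mul α a b ▸ v_mul_le ha.1 hb.1, map_mul β a b ▸ v_mul_le ha.2.1 hb.2.1,
    by
      rw [show α (a * b) - β (a * b) = α a * (α b - β b) - β b * (β a - α a) by
        rw [map_mul, map_mul]; ring]
      exact v_sub_le (v_mul_le ha.1 hb.2.2) (v_mul_le hb.2.1 (W.v.map_sub_swap _ _ ▸ ha.2.2))⟩
  add_mem' {a b} ha hb := ⟨map_add α a b ▸ W.v.map_add_le ha.1 hb.1,
    map_add β a b ▸ W.v.map_add_le ha.2.1 hb.2.1, by
      rw [show α (a + b) - β (a + b) = (α a - β a) + (α b - β b) by rw [map_add, map_add]; ring]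
      exact W.v.map_add_le ha.2.2 hb.2.2⟩
  algebraMap_mem' c := ⟨α.commutes c ▸ W.v_alg_le c, β.commutes c ▸ W.v_alg_le c, by
    rw [α.commutes, β.commutes, sub_self, map_zero]; exact zero_le⟩

variable {α β}

theorem map_ne {z : ι → F} (hz : z ≠ 0) (α : F →ₐ[ℂ] L) : (fun i => α (z i)) ≠ 0 := fun h =>
  hz (funext fun i => (map_eq_zero α).1 (congrFun h i))

theorem dst_le_of_on {Q : PModel ℂ F} {z : ι → F} (hz : z ≠ 0) (h : mxf ℂ z ∈ On Q)
    (hw : wd (fun i => α (z i)) (fun i => β (z i)) ≠ 0)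
    (hw' : wd (fun i => α (Q.y i)) (fun i => β (Q.y i)) ≠ 0) (W : RZ ℂ L) :
    dst W (fun i => α (z i)) (fun i => β (z i)) ≤
      dst W (fun i => α (Q.y i)) fun i => β (Q.y i) := by
  set δ := dst W (fun i => α (Q.y i)) fun i => β (Q.y i) with hδ
  rcases lt_or_ge δ 1 with h1 | h1
  swap
  · exact le_trans (dst_le_one hw W) h1
  obtain ⟨x, hx⟩ := exists_ov' Q (cm (α : F →+* L) (alg_ov α) W)
  have hα : ∀ f ∈ (lp x).O, W.v (α f) ≤ 1 := fun f hf => RZ.le_one_iff.2 (hx f hf)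
  have nrm : ∀ {κ : Type} [Fintype κ] {s : κ → F} {γ : F →ₐ[ℂ] L} {j : κ}, s j ≠ 0 →
      (∀ l, W.v (γ (s l / s j)) ≤ 1) → W.v (γ (s j)) = (mxf ℂ fun l => γ (s l)).val W :=
    fun {_ _ s γ j} hj h => (val_mxf (s := fun l => γ (s l)) ((map_ne_zero γ).2 hj) fun l =>
      (RZ.le_iff ((map_ne_zero γ).2 hj)).2 (RZ.le_one_iff.1 (map_div₀ γ _ _ ▸ h l))).symm
  obtain ⟨i, hi⟩ := exists_pat x
  have h2 := nrm (Q.y_ne i) fun l => hα _ (y_mem hi l)
  have h3 := same hw' (map_ne (Function.ne_iff.2 ⟨i, Q.y_ne i⟩) β) h1 h2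
  have h4 : Q.A i ≤ lip α β W δ := Algebra.adjoin_le (by
    rintro _ ⟨l, rfl⟩
    refine ⟨hα _ (y_mem hi l), map_div₀ β _ _ ▸ v_div_le h3 l, ?_⟩
    have h5 := (dst_le_iff hw' h2 h3).1 le_rfl l i
    rwa [div_self (ne_of_val h2), div_self (ne_of_val h3), mul_one, one_mul, ← map_div₀,
      ← map_div₀] at h5)
  have h5 : ∀ f ∈ (lp x).O, f ∈ lip α β W δ := fun f hf => by
    obtain ⟨a, ha, c, hc, h6, h7⟩ := (mem_lp_iff hi).1 hf
    have h8 : W.v (α c) = 1 := Cns.un_iff_val.1 (hx.un h6).map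
    have h9 := v_eq_one h8 ((h4 hc).2.2.trans_lt h1)
    have h10 : W.v (β f) ≤ 1 := by
      rw [← mul_one (W.v (β f)), ← h9, ← map_mul, ← map_mul, h7, h9]
      exact (h4 ha).2.1
    refine ⟨hα f hf, h10, ?_⟩
    rw [← mul_one (W.v (α f - β f)), ← h8, ← map_mul,
      show (α f - β f) * α c = (α a - β a) - β f * (α c - β c) by
        rw [← h7, map_mul, map_mul]; ring]
    exact v_sub_le (h4 ha).2.2 (v_mul_le h10 (h4 hc).2.2)
  obtain ⟨j, hj, h6⟩ := gn_of_mem (Function.ne_iff.1 hz) h x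
  refine (dst_le_iff hw (nrm hj fun l => (h5 _ (h6 l)).1) (nrm hj fun l => (h5 _ (h6 l)).2.1)).2
    fun l m => ?_
  simp only [← map_div₀]
  rw [show α (z l / z j) * β (z m / z j) - α (z m / z j) * β (z l / z j) =
    β (z m / z j) * (α (z l / z j) - β (z l / z j)) -
      β (z l / z j) * (α (z m / z j) - β (z m / z j)) by ring]
  exact v_sub_le (v_mul_le (h5 _ (h6 m)).2.1 (h5 _ (h6 l)).2.2)
    (v_mul_le (h5 _ (h6 l)).2.1 (h5 _ (h6 m)).2.2)

theorem small_of_ux (M : QM om) {x y : Fin 4 → L} {P : I2 → L} (h : OnS om P) (hr : Rel M.B x P)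
    {i : Fin 4} (h1 : x i = 1) (h2 : y i = 0) (hx : ∀ l, W.v (x l) ≤ 1) (hP : ∀ l, W.v (P l) ≤ 1)
    {j : I2} (hj : P j = 1) {δ : W.1.ValueGroup}
    (hy : ∀ a, W.v (∑ l, y l * ln (M.B a) P l) ≤ δ) (k' : Fin 4) : W.v (y k') ≤ δ := by
  obtain ⟨k, hk⟩ := Cns.exists_mx y W.1
  refine (hk k').trans (not_lt.1 fun h4 => ?_)
  have h5 : y k ≠ 0 := fun h0 => by simp [h0] at h4
  obtain ⟨L', h6, h7⟩ := exists_lp W (((Set.finite_range x).union
    (Set.finite_range ((y k)⁻¹ • y))).union (Set.finite_range P))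
  have a1 : In L' x := fun l => (h7 _ (Or.inl (Or.inl ⟨l, rfl⟩)) (RZ.le_one_iff.1 (hx l))).1
  have a2 : In L' ((y k)⁻¹ • y) := fun l => (h7 _ (Or.inl (Or.inr ⟨l, rfl⟩))
    (by rw [inv_smul_apply]; exact (RZ.le_iff h5).1 (hk l))).1
  have a3 : In L' P := fun l => (h7 _ (Or.inr ⟨l, rfl⟩) (RZ.le_one_iff.1 (hP l))).1
  have a4 : vl L' P ≠ 0 := Function.ne_iff.2 ⟨j, by rw [vl, hj, LP.v_one]; exact one_ne_zero⟩
  have a5 : Rel M.B (vl L' ((y k)⁻¹ • y)) (vl L' P) := fun a => by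
    rw [← v_rel a2 a3]
    refine (h6 _ ?_).2
    have e3 : ∑ l, ((y k)⁻¹ • y) l * ln (M.B a) P l = (∑ l, y l * ln (M.B a) P l) / y k := by
      rw [Finset.sum_div]
      exact Finset.sum_congr rfl fun l _ => by rw [inv_smul_apply, div_mul_eq_mul_div]
    rw [e3, map_div₀, div_lt_one₀ (RZ.pos h5)]
    exact (hy a).trans_lt h4
  have h8 := M.ux _ _ _ (ons_sp h a3 a4) (rel_sp hr a1 a3) a5 i k
  rw [vl, vl, vl, vl, inv_smul_apply, inv_smul_apply, h1, h2, div_self h5, zero_div, LP.v_one,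
    LP.v_zero, mul_zero, mul_one] at h8
  exact one_ne_zero h8

theorem dst_le_ux (M : QM om) {x x' : Fin 4 → L} {P P' : I2 → L} (hx : x ≠ 0) (h : OnS om P)
    (h' : P' ≠ 0) (hr : Rel M.B x P) (hr' : Rel M.B x' P') (hw : wd x x' ≠ 0) (hw' : wd P P' ≠ 0)
    (W : RZ ℂ L) : dst W x x' ≤ dst W P P' := by
  rcases lt_or_ge (dst W P P') 1 with h1 | h1
  swap
  · exact le_trans (dst_le_one hw W) h1
  obtain ⟨j, hj⟩ := exists_val_mxf (k := ℂ) (Function.ne_iff.1 h.ne) W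
  have hj' := same hw' h' h1 hj
  obtain ⟨i, hi⟩ := exists_val_mxf (k := ℂ) (Function.ne_iff.1 hx) W
  obtain ⟨c, hc⟩ := W.exists_v ((mxf ℂ x').val W)
  have h2 : ∀ l, W.v (((P j)⁻¹ • P - (P' j)⁻¹ • P') l) ≤ dst W P P' := fun l => by
    have h3 := (dst_le_iff hw' hj hj').1 le_rfl l j
    rw [div_self (ne_of_val hj), div_self (ne_of_val hj'), mul_one, one_mul] at h3
    rwa [Pi.sub_apply, inv_smul_apply, inv_smul_apply]
  have h3 := small_of_ux (W := W) M (ons_smul h (inv_ne_zero (ne_of_val hj)))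
    (rel_smul hr (x i)⁻¹ (P j)⁻¹) (y := fun k => x' k / c - x' i / c * (x k / x i)) (i := i)
    (by rw [inv_smul_apply, div_self (ne_of_val hi)])
    (by rw [div_self (ne_of_val hi), mul_one, sub_self])
    (fun l => by rw [inv_smul_apply]; exact v_div_le hi l)
    (fun l => by rw [inv_smul_apply]; exact v_div_le hj l) (j := j)
    (by rw [inv_smul_apply, div_self (ne_of_val hj)]) (δ := dst W P P') fun a => by
      have e1 := rel_smul hr (x i)⁻¹ (P j)⁻¹ a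
      have e2 := rel_smul hr' c⁻¹ (P' j)⁻¹ a
      have e3 : ∑ l, (x' l / c - x' i / c * (x l / x i)) * ln (M.B a) ((P j)⁻¹ • P) l =
          ∑ l, x' l / c * ln (M.B a) ((P j)⁻¹ • P - (P' j)⁻¹ • P') l := by
        rw [ln_sub]
        generalize ln (M.B a) ((P j)⁻¹ • P) = A at e1 ⊢
        generalize ln (M.B a) ((P' j)⁻¹ • P') = A' at e2 ⊢
        simp only [inv_smul_apply, Fin.sum_univ_four, Pi.sub_apply] at e1 e2 ⊢
        linear_combination e2 - x' i / c * e1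
      rw [e3]
      refine W.v.map_sum_le fun l _ => v_mul_le (v_div_le hc l) ?_
      exact W.v.map_sum_le fun m _ => v_mul_le (W.v_alg_le _) (h2 m)
  refine (dst_le_iff hw hi hc).2 fun k l => ?_
  rw [show x k / x i * (x' l / c) - x l / x i * (x' k / c) =
    x k / x i * (x' l / c - x' i / c * (x l / x i)) -
      x l / x i * (x' k / c - x' i / c * (x k / x i)) by ring]
  exact v_sub_le (v_mul_le (v_div_le hi k) (h3 l)) (v_mul_le (v_div_le hi l) (h3 k))

theorem wd_ne {z : ι → F} (hz : IntermediateField.adjoin ℂ {x | ∃ i j, x = z i / z j} = ⊤)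
    (h : α ≠ β) : wd (fun i => α (z i)) (fun i => β (z i)) ≠ 0 := fun h0 => h (by
  have h1 : (⊤ : IntermediateField ℂ F) ≤ (AlgHom.equalizer α β).toIntermediateField
      fun x hx => by
        rw [AlgHom.mem_equalizer] at hx ⊢
        rw [map_inv₀, map_inv₀, hx] := by
    rw [← hz, IntermediateField.adjoin_le_iff]
    rintro _ ⟨i, j, rfl⟩
    change α _ = β _
    by_cases hj : z j = 0
    · simp [hj]
    · rw [map_div₀, map_div₀, div_eq_div_iff ((map_ne_zero α).2 hj) ((map_ne_zero β).2 hj),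
        mul_comm (β _)]
      exact sub_eq_zero.1 (congrFun h0 (i, j))
  exact AlgHom.ext fun x => h1 IntermediateField.mem_top)

theorem gen_y (Q : PModel ℂ F) :
    IntermediateField.adjoin ℂ {x | ∃ i j, x = Q.y i / Q.y j} = ⊤ := top_unique fun f _ => by
  obtain ⟨a, ha, c, hc, -, rfl⟩ := Q.frac f
  have h : chart ℂ Q.y 0 ≤ (IntermediateField.adjoin ℂ {x | ∃ i j, x = Q.y i / Q.y j}).toSubalgebra :=
    Algebra.adjoin_le (by
      rintro _ ⟨j, rfl⟩
      exact IntermediateField.subset_adjoin _ _ ⟨j, 0, rfl⟩)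
  exact div_mem (h ha) (h hc)

theorem dgl_eq (M : QM om) (S : Hyp 3 M.Γ F) (h : OnS om p) (hr : Rel M.B S.y p)
    (hp : IntermediateField.adjoin ℂ {x | ∃ i j, x = p i / p j} = ⊤) (hne : α ≠ β) :
    dgl α β S.y = dgl α β p := ext' fun W => by
  have h1 := wd_ne hp hne
  have h2 : wd (fun i => α (S.y i)) (fun i => β (S.y i)) ≠ 0 := wd_ne (gen_y S.P) hne
  have h3 := dst_le_ux M (map_ne (Function.ne_iff.2 ⟨0, S.y_ne 0⟩) α) (ons_map α h)
    (map_ne h.ne β) (rel_map α hr) (rel_map β hr) h2 h1 W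
  have h4 := dst_le_of_on (Q := S.P) h.ne (on_p M S h hr) h1 h2 W
  rw [val_dgl, val_dgl]
  exact congrArg Inv.inv (le_antisymm h3 h4)

end Dst

/-- **ON** -/
theorem onStmt : OnStmt := fun _ G _ _ _ Z =>
  have h1 := on_p G.M Z.S Z.on Z.relS
  have h2 := on_p G.N Z.T Z.on Z.relT
  ⟨h1, h2, on_y G.N Z.on h1 (Function.ne_iff.2 ⟨0, Z.T.y_ne 0⟩) Z.relT,
    on_y G.M Z.on h2 (Function.ne_iff.2 ⟨0, Z.S.y_ne 0⟩) Z.relS, fun _ _ _ _ _ h =>
    ⟨dgl_eq G.M Z.S Z.on Z.relS Z.gen h, dgl_eq G.N Z.T Z.on Z.relT Z.gen h⟩⟩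

end Crest.Agent.X262.StOn
end
end

-- ▼ part X262/StOn/Gen
section

/-!
# Row 262, G4 / START (helper29), part 3: the generic point

* `exists_hyp`, `hyp_of_trdeg` : generic points of a smooth quartic surface;
* `gen_p`, `ln_ne`, `gen_t`    : the three tuples generate the same field;
* `genStmt : St91.GenStmt`.
-/

set_option autoImplicit false
set_option linter.style.haveILetI false

open MvPolynomial

noncomputable section

namespace Crest.Agent.X262.StOn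

open Crest.Agent.X277 Crest.Agent.X277.Lef Crest.Agent.X277.AN.G1 Crest.Agent.X277.BD
open Crest.Agent.X262.Top (Hyp)
open Crest.Agent.X262.Mv99 (Qt)
open Crest.Agent.X262.St91 Crest.Agent.X262.Brg Crest.Agent.X262.Brg.Hyp0

variable {F : Type} [Field F] [Algebra ℂ F] {om : Fin 6 → I2 → ℂ} {p : I2 → F}
  {Γ : MvPolynomial (Fin 4) ℂ}

theorem exists_hyp (h : Qt Γ) : ∃ (F : Type) (_ : Field F) (_ : Algebra ℂ F),
    Algebra.trdeg ℂ F = 2 ∧ Nonempty (Hyp 3 Γ F) := by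
  have hp : Prime (Cubic.deh Γ) := Cubic.prime_deh (n := 3) (by norm_num) (by norm_num) h.1 h.2.2
  let I : Ideal (MvPolynomial (Fin 3) ℂ) := Ideal.span {Cubic.deh Γ}
  haveI : IsDomain (MvPolynomial (Fin 3) ℂ ⧸ I) :=
    (Ideal.Quotient.isDomain_iff_prime _).2 ((Ideal.span_singleton_prime hp.ne_zero).2 hp)
  let K := FractionRing (MvPolynomial (Fin 3) ℂ ⧸ I)
  have e : aeval (R := ℂ) (fun i : Fin 3 => Ideal.Quotient.mk I (X i)) =
      Ideal.Quotient.mkₐ ℂ I := by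
    ext1 i
    exact aeval_X _ _
  refine ⟨K, inferInstance, inferInstance,
    (Cubic.trdeg_frac ℂ _ K).trans (by exact_mod_cast Cubic.trdeg_quot (n := 2) hp),
    ⟨Main.hypOf h.1 (by norm_num) h.2.2
      (adjoin_top_of_frac (fun i : Fin 3 => Ideal.Quotient.mk I (X i))
        (e ▸ Ideal.Quotient.mkₐ_surjective ℂ _))
      (gp_of_ker (N := 3) (by norm_num) (by norm_num) h.1 h.2.2 fun q => ?_)⟩⟩
  refine (Eq.congr_left (aeval_algebraMap_apply K _ q)).trans ?_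
  rw [map_eq_zero_iff _ (IsFractionRing.injective _ K), e,
    Ideal.Quotient.mkₐ_eq_mk, Ideal.Quotient.eq_zero_iff_mem, Ideal.mem_span_singleton]

theorem top_of_gen {ι : Type} {z : ι → F} {i : ι} (hi : z i ≠ 0)
    (h : IntermediateField.adjoin ℂ {x | ∃ i j, x = z i / z j} = ⊤) {K : IntermediateField ℂ F}
    (hK : ∀ j, z j / z i ∈ K) : K = ⊤ := top_unique (h ▸ IntermediateField.adjoin_le_iff.2 (by
  rintro _ ⟨j, k, rfl⟩
  rw [← div_div_div_cancel_right₀ hi]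
  exact div_mem (hK j) (hK k)))

theorem hyp_of_trdeg (h : Qt Γ) {t : Fin 4 → F} (h0 : t ≠ 0) (hon : aeval t Γ = 0)
    (gen : IntermediateField.adjoin ℂ {x | ∃ i j, x = t i / t j} = ⊤)
    (htr : Algebra.trdeg ℂ F = 2) : ∃ T : Hyp 3 Γ F, T.y = t := by
  obtain ⟨i, hi⟩ := Function.ne_iff.1 h0
  replace hi : t i ≠ 0 := hi
  obtain ⟨E, _, _, hE, ⟨S⟩⟩ := exists_hyp h
  have hS : GP Γ S.y := S.ker
  let φ : chart ℂ S.y i →ₐ[ℂ] F := AlgHom.liftOfSurjective (pres ℂ S.y i) (pres_surj i)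
    (aeval ((t i)⁻¹ • t)) (by
      change RingHom.ker (pres ℂ S.y i) ≤ _
      rw [hS.ker h.1 (S.y_ne i), Ideal.span_le]
      rintro _ (rfl | rfl)
      · change aeval _ _ = 0
        rw [aeval_smul h.1, hon, mul_zero]
      · change aeval _ _ = 0
        simp [hi])
  have hφ : ∀ q, φ (pres ℂ S.y i q) = aeval ((t i)⁻¹ • t) q := fun q =>
    AlgHom.liftOfSurjective_apply _ _ _ _ q
  haveI : IsFractionRing (chart ℂ S.y i) E := S.P.isFractionRing i
  haveI : Algebra.FiniteType ℂ (chart ℂ S.y i) := .of_surjective _ (pres_surj i)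
  obtain ⟨d, hd, hd'⟩ := Cubic.dim_trdeg ℂ (chart ℂ S.y i)
  obtain rfl : d = 2 := by
    rw [← Cubic.trdeg_frac ℂ _ E, hE] at hd'
    exact_mod_cast hd'.symm
  have hinj : Function.Injective φ := Sym.inj_of_dim φ (Sym.fr_of_adjoin (top_of_gen hi gen fun j =>
    IntermediateField.subset_adjoin _ _ ⟨pres ℂ S.y i (X j), by
      change φ _ = _
      rw [hφ, aeval_X, inv_smul_apply]⟩)) hd.le (by exact_mod_cast htr)
  have hT : GP Γ t := fun m q hq => by
    have h1 := hφ q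
    have h2 := coe_pres (k := ℂ) (y := S.y) i q
    rw [aeval_smul hq] at h1 h2
    rw [← hS m q hq, ← mul_eq_zero_iff_left (pow_ne_zero m (inv_ne_zero hi)), ← h1,
      ← mul_eq_zero_iff_left (pow_ne_zero m (inv_ne_zero (S.y_ne i))), ← h2,
      map_eq_zero_iff _ hinj]
    exact Subtype.ext_iff
  have hne := hT.ne h.1 (by norm_num)
  refine ⟨⟨t, hne, fun f => ?_, fun j => hT.smooth h.1 h.2.2 (hne j), hT⟩, rfl⟩
  obtain ⟨c, h1, h2, h3⟩ := Sym.fr_of_adjoin (S := chart ℂ t 0) (top_of_gen (hne 0) gen fun j =>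
    IntermediateField.subset_adjoin _ _ (div_mem_chart t 0 j)) f
  exact ⟨_, h3, c, h1, h2, (mul_div_cancel_right₀ f h2).symm⟩

theorem gen_p (M : QM om) (S : Hyp 3 M.Γ F) (h : OnS om p) (hr : Rel M.B S.y p) :
    IntermediateField.adjoin ℂ {x | ∃ i j, x = p i / p j} = ⊤ := by
  set K := IntermediateField.adjoin ℂ {x | ∃ i j, x = p i / p j}
  obtain ⟨j, hj⟩ := Function.ne_iff.1 h.ne
  replace hj : p j ≠ 0 := hj
  obtain ⟨φ, hφ⟩ := Module.Projective.exists_dual_eq_one K (one_ne_zero (α := F))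
  have h1 := rel_smul hr (S.y 0)⁻¹ (p j)⁻¹
  have h2 : ∀ a l, ln (M.B a) ((p j)⁻¹ • p) l ∈ K := fun a l =>
    sum_mem fun m _ => mul_mem (algebraMap_mem _ _) (by
      rw [inv_smul_apply]
      exact IntermediateField.subset_adjoin _ _ ⟨m, j, rfl⟩)
  have h3 : Rel M.B (fun l => (φ (((S.y 0)⁻¹ • S.y) l) : F)) ((p j)⁻¹ • p) := fun a => by
    have h4 := congrArg (fun x => (φ x : F)) (h1 a)
    simp only [map_sum, map_zero, IntermediateField.coe_sum, ZeroMemClass.coe_zero] at h4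
    rw [← h4]
    refine Finset.sum_congr rfl fun l _ => ?_
    have h5 := φ.map_smul (⟨_, h2 a l⟩ : K) (((S.y 0)⁻¹ • S.y) l)
    rw [mul_comm (((S.y 0)⁻¹ • S.y) l), mul_comm]
    exact (congrArg Subtype.val h5).symm
  refine top_of_gen (S.y_ne 0) (gen_y S.P) fun l => ?_
  have h4 := ux M (ons_smul h (inv_ne_zero hj)) h1 h3 l 0
  simp only [inv_smul_apply, div_self (S.y_ne 0), hφ, one_mul, OneMemClass.coe_one, mul_one] at h4
  exact h4 ▸ (φ _).2

theorem vl_cv {ι : Type} (A : ι → MvPolynomial (Fin 2) ℂ) {L : LP F} {s : Fin 2 → F}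
    (hs : In L s) : In L (cv A s) ∧ vl L (cv A s) = cv A (vl L s) :=
  ⟨fun i => LP.aeval_mem hs (A i), funext fun i => LP.v_aeval hs (A i)⟩

theorem vl_zero {ι : Type} (L : LP F) : vl L (0 : ι → F) = 0 := funext fun _ => L.v_zero

theorem ln_ne {N M : QM om} (C : Crv N M) (h : OnS om p)
    (gen : IntermediateField.adjoin ℂ {x | ∃ i j, x = p i / p j} = ⊤)
    (htr : Algebra.trdeg ℂ F = 2) : ln N.π p ≠ 0 := fun h0 => by
  have key : ∀ L : LP F, (∀ f ∈ Set.range p, f ∈ L.O ∧ (f ≠ 0 → L.v f ≠ 0)) →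
      (∃ k, ln (C.τ k) (vl L p) ≠ 0) ∧ ∀ k, Par (vl L p) (cv C.A (ln (C.τ k) (vl L p))) :=
    fun L hL => C.sur _ (ons_sp h (in_of hL subset_rfl) (vl_ne hL subset_rfl h.ne))
      (by rw [← vl_ln _ (in_of hL subset_rfl), h0, vl_zero])
  obtain ⟨k, hk⟩ : ∃ k, ln (C.τ k) p ≠ 0 := by
    obtain ⟨L, hL⟩ := exists_lp0 (Set.finite_range p)
    obtain ⟨k, hk⟩ := (key L hL).1
    exact ⟨k, fun h1 => hk (by rw [← vl_ln _ (in_of hL subset_rfl), h1, vl_zero])⟩
  have h1 : Par p (cv C.A (ln (C.τ k) p)) := fun i j =>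
    sub_eq_zero.1 (zero_of_sp (Set.finite_range p) fun L hL => by
      have a1 := in_of hL subset_rfl
      obtain ⟨a2, a3⟩ := vl_cv C.A (in_ln (C.τ k) a1)
      rw [v_wd a1 a2, a3, vl_ln _ a1, sub_eq_zero]
      exact (key L hL).2 k i j)
  generalize ln (C.τ k) p = s at hk h1
  have h2 : cv C.A s ≠ 0 := fun h2 => by
    obtain ⟨L, hL⟩ := exists_lp0 (Set.finite_range s)
    refine (C.on _ (vl_ne hL subset_rfl hk)).1.ne ?_
    rw [← (vl_cv C.A (in_of hL subset_rfl)).2, h2, vl_zero]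
  obtain ⟨m, hm⟩ := Function.ne_iff.1 hk
  obtain ⟨j, hj⟩ := Function.ne_iff.1 h2
  obtain ⟨i, hi⟩ := Function.ne_iff.1 h.ne
  replace hm : s m ≠ 0 := hm
  replace hj : cv C.A s j ≠ 0 := hj
  have hpj : p j ≠ 0 := fun h3 => mul_ne_zero hi hj ((h1 i j).trans (by rw [h3, zero_mul]))
  let K := IntermediateField.adjoin ℂ {s 0 / s 1}
  have h3 : ∀ l, ((s m)⁻¹ • s) l ∈ K := fun l => by
    have h4 : s 0 / s 1 ∈ K := IntermediateField.mem_adjoin_simple_self _ _
    rw [inv_smul_apply]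
    fin_cases l <;> fin_cases m
    · exact (div_self hm).symm ▸ one_mem K
    · exact h4
    · exact inv_div (s 0) (s 1) ▸ inv_mem h4
    · exact (div_self hm).symm ▸ one_mem K
  have h4 : ∀ l, aeval ((s m)⁻¹ • s) (C.A l) ∈ K := fun l => by
    have h5 : Algebra.adjoin ℂ (Set.range ((s m)⁻¹ • s)) ≤ K.toSubalgebra :=
      Algebra.adjoin_le (by rintro _ ⟨l, rfl⟩; exact h3 l)
    refine h5 ?_
    rw [Algebra.adjoin_range_eq_range_aeval]
    exact ⟨_, rfl⟩
  have h5 : K = ⊤ := top_of_gen hpj gen fun l => by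
    have h6 := div_mem (h4 l) (h4 j)
    rw [aeval_smul (C.hA l), aeval_smul (C.hA j),
      mul_div_mul_left _ _ (pow_ne_zero _ (inv_ne_zero hm))] at h6
    rwa [(div_eq_div_iff hpj hj).2 ((h1 l j).trans (mul_comm _ _))]
  haveI : Algebra.IsAlgebraic K F :=
    ⟨fun x => isAlgebraic_algebraMap (⟨x, h5 ▸ IntermediateField.mem_top⟩ : K)⟩
  haveI := IntermediateField.isAlgebraic_adjoin_iff_top.1 this
  have h6 := Algebra.IsAlgebraic.trdeg_le_cardinalMk ℂ ({s 0 / s 1} : Set F)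
  rw [htr, Cardinal.mk_singleton] at h6
  norm_num at h6

theorem top_of_emb (K : IntermediateField ℂ F)
    (h : ∀ σ σ' : F →ₐ[K] AlgebraicClosure F, σ = σ') : K = ⊤ := by
  haveI : IsPurelyInseparable K F := isPurelyInseparable_of_finSepDegree_eq_one
    (Nat.card_eq_one_iff_unique.2 ⟨⟨h⟩, inferInstance⟩)
  haveI : CharZero F := charZero_of_injective_algebraMap (algebraMap ℂ F).injective
  refine top_unique fun x _ => ?_
  obtain ⟨y, rfl⟩ := IsPurelyInseparable.surjective_algebraMap_of_isSeparable K F x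
  exact y.2

theorem gen_t (N : QM om) (h : OnS om p)
    (gen : IntermediateField.adjoin ℂ {x | ∃ i j, x = p i / p j} = ⊤) {t : Fin 4 → F} (ht : t ≠ 0)
    (hr : Rel N.B t p) : IntermediateField.adjoin ℂ {x | ∃ i j, x = t i / t j} = ⊤ :=
  top_of_emb _ fun σ σ' => AlgHom.restrictScalars_injective ℂ (by
    by_contra hne
    obtain ⟨i, hi⟩ := Function.ne_iff.1 ht
    have h1 := rel_smul hr (t i)⁻¹ 1
    rw [one_smul] at h1
    have h2 : (fun l => σ'.restrictScalars ℂ (((t i)⁻¹ • t) l)) =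
        fun l => σ.restrictScalars ℂ (((t i)⁻¹ • t) l) := funext fun l => by
      have h3 : ((t i)⁻¹ • t) l ∈ IntermediateField.adjoin ℂ {x | ∃ i j, x = t i / t j} :=
        IntermediateField.subset_adjoin _ _ ⟨l, i, inv_smul_apply _ _ _⟩
      exact (σ'.commutes ⟨_, h3⟩).trans (σ.commutes ⟨_, h3⟩).symm
    have h3 := uP N (map_ne (smul_ne_zero (inv_ne_zero hi) ht) (σ.restrictScalars ℂ))
      (ons_map _ h) (ons_map (σ'.restrictScalars ℂ) h) (rel_map _ h1) (h2 ▸ rel_map _ h1)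
    exact wd_ne gen hne (funext fun ij => sub_eq_zero.2 (h3 ij.1 ij.2)))

/-- **GEN** -/
theorem genStmt : GenStmt := fun om G => by
  obtain ⟨F, _, _, htr, ⟨S⟩⟩ := exists_hyp G.M.qt
  haveI : Algebra.EssFiniteType ℂ F := by
    haveI := S.P.isFractionRing 0
    haveI : Algebra.FiniteType ℂ (S.P.A 0) := .of_surjective _ (pres_surj 0)
    haveI : Algebra.EssFiniteType (S.P.A 0) F :=
      Algebra.EssFiniteType.of_isLocalization F (nonZeroDivisors (S.P.A 0))
    exact Algebra.EssFiniteType.comp ℂ (S.P.A 0) F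
  let p : I2 → F := fun i => aeval S.y (G.Ψ i)
  obtain ⟨x₀, hx₀, i₀, hi₀⟩ := G.ex
  have h0 : p i₀ ≠ 0 := fun h => hi₀ (by
    obtain ⟨q, hq⟩ := (S.ker _ _ (G.hΨ i₀)).1 h
    rw [hq, map_mul, hx₀, zero_mul])
  have key : ∀ L : LP F, (∀ f ∈ Set.range S.y ∪ Set.range p, f ∈ L.O ∧ (f ≠ 0 → L.v f ≠ 0)) →
      In L S.y ∧ In L p ∧ OnS om (vl L p) ∧ Rel G.M.B (vl L S.y) (vl L p) := fun L hL => by
    have a1 : In L S.y := in_of hL fun _ h => Or.inl h
    have a2 : vl L p = fun i => eval (vl L S.y) (G.Ψ i) := funext fun i => LP.v_aeval a1 _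
    refine ⟨a1, in_of hL fun _ h => Or.inr h, a2 ▸ G.inv _ ?_ ⟨i₀, ?_⟩⟩
    · refine (LP.v_aeval a1 _).symm.trans ?_
      rw [(S.ker _ _ G.M.qt.1).2 dvd_rfl, LP.v_zero]
    · exact congrFun a2 i₀ ▸ (hL _ (Or.inr ⟨i₀, rfl⟩)).2 h0
  have hs := (Set.finite_range S.y).union (Set.finite_range p)
  have hon : OnS om p := ⟨Function.ne_iff.2 ⟨i₀, h0⟩,
    fun i j => eq_neg_of_add_eq_zero_left (zero_of_sp hs fun L hL => by
      obtain ⟨-, a2, a3, -⟩ := key L hL
      rw [L.v_add (a2 _) (a2 _)]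
      exact add_eq_zero_iff_eq_neg.2 (a3.skew i j)),
    fun i j k l => zero_of_sp hs fun L hL => by
      obtain ⟨-, a2, a3, -⟩ := key L hL
      rw [v_plk a2, a3.plk],
    funext fun i => zero_of_sp hs fun L hL => by
      obtain ⟨-, a2, a3, -⟩ := key L hL
      exact congrFun ((vl_ln om a2).trans a3.lin) i⟩
  have hr : Rel G.M.B S.y p := fun a => zero_of_sp hs fun L hL => by
    obtain ⟨a1, a2, -, a4⟩ := key L hL
    rw [v_rel a1 a2, a4 a]
  have hg := gen_p G.M S hon hr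
  have ht := ln_ne G.b hon hg htr
  obtain ⟨T, hT⟩ := hyp_of_trdeg G.N.qt ht (on G.N hon) (gen_t G.N hon hg ht (rel G.N hon)) htr
  refine ⟨F, inferInstance, inferInstance, inferInstance, ?_,
    ⟨⟨S, T, p, hon, hr, hT ▸ rel G.N hon, hg⟩⟩⟩
  rw [trdeg_eq_dim] at htr
  exact_mod_cast htr

end Crest.Agent.X262.StOn
end
end

-- ▼ part X262/StNum81/Deg
section

/-!
# Row 262, G4 / START (helper81), part 1: the degree of a quartic surface

* `mxf_mul`  : rescaling of a family; `pn_eq` : the degree of projective space;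
* `degStmt`  : `St91.DegStmt`.
-/

set_option autoImplicit false
set_option linter.unusedSectionVars false

noncomputable section

namespace Crest.Agent.X262.StNum

open Crest.Agent.X277 Crest.Agent.X277.BD Crest.Agent.X277.Pst
open Crest.Agent.X277.BD.Br (On oP)
open Crest.Agent.X262.Lin62 MvPolynomial
open Crest.Agent.X262.Top (Hyp)
open Crest.Agent.X262.Mv99 (Qt)
open Crest.Agent.X262.Brg.Cubic (deh hom hom_isHomogeneous deh_hom)
open List (replicate)
open IntermediateField (adjoin)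
open Set (range)

section Gen

variable {k F : Type} [Field k] [Field F] [Algebra k F]

theorem mxf_mul {ι : Type} [Fintype ι] {s : ι → F} (h0 : ∃ i, s i ≠ 0) {c : F} (hc : c ≠ 0) :
    (mxf k fun i => c * s i) = mxf k s + pr k c := by
  refine (eq_mxf (fun i V => ?_) fun V => ?_).symm
  · rw [val_add, val_pr hc, map_mul, mul_comm]
    exact mul_le_mul_left (mem_Sec_mxf s i V) _
  · obtain ⟨i, hi⟩ := exists_val_mxf (k := k) h0 V
    exact ⟨i, by rw [val_add, val_pr hc, map_mul, mul_comm, hi]⟩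

theorem lin_mul {ι : Type} [Fintype ι] {s : ι → F} (h0 : ∃ i, s i ≠ 0) {c : F} (hc : c ≠ 0) :
    Lin (mxf k fun i => c * s i) (mxf k s) := ⟨c, hc, mxf_mul h0 hc⟩

variable [CharZero k] [Algebra.EssFiniteType k F]

theorem le_dim {n : ℕ} {t : Fin n → F} (h : AlgebraicIndependent k t) : n ≤ dim k F := by
  have h1 := h.cardinalMk_le_trdeg
  rw [trdeg_eq_dim, Cardinal.mk_fin] at h1
  exact_mod_cast h1

theorem pn_eq {n : ℕ} {t : Fin n → F} (h : adjoin k (range t) = ⊤) (hd : dim k F = n) :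
    bnum (replicate n (mx1 k t)) = 1 := by
  have h1 : (mx1 k t).sf = ⊤ := by
    rw [eq_top_iff, ← h, IntermediateField.adjoin_le_iff]
    rintro _ ⟨i, rfl⟩
    simpa using div_mem_sf (mem_mx1 (k := k) t i) (nonneg_iff.1 (mx1_nonneg t))
  have h2 : Big (mx1 k t) := (va_of_alg (free_mx1 t) (by rw [h1]; infer_instance)).big
  refine le_antisymm (pn n h) (bnum_pos (by simp [hd]) fun x hx => ?_)
  rw [List.eq_of_mem_replicate hx]
  exact ⟨(free_mx1 t).nef, h2⟩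

theorem sq_mono {a b : BD k F} (h : a ≤ b) (ha : Nef a) (hb : Nef b) :
    bnum [a, a] ≤ bnum [b, b] := by
  have h0 := psef_of_nonneg (sub_nonneg.2 h)
  have h1 := h0.bnum_nonneg (l := [a]) (by simpa using ha)
  have h2 := h0.bnum_nonneg (l := [b]) (by simpa using hb)
  rw [bnum_sub] at h1 h2
  rw [bnum_swap b a] at h1
  omega

end Gen

/-- polynomials in the last variable -/
def psi : MvPolynomial (Fin 3) ℂ →ₐ[ℂ] Polynomial (MvPolynomial (Fin 2) ℂ) :=
  aeval ![Polynomial.C (X 0), Polynomial.C (X 1), Polynomial.X]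

theorem psi_surj : Function.Surjective psi := fun P => by
  induction P using Polynomial.induction_on with
  | C r =>
    refine ⟨rename Fin.castSucc r, ?_⟩
    have h : psi.comp (rename Fin.castSucc) = Polynomial.CAlgHom := by
      ext1 i
      fin_cases i <;> simp [psi]
    exact DFunLike.congr_fun h r
  | add p q hp hq =>
    obtain ⟨a, rfl⟩ := hp
    obtain ⟨b, rfl⟩ := hq
    exact ⟨a + b, map_add _ _ _⟩
  | monomial n a ih =>
    obtain ⟨q, hq⟩ := ih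
    exact ⟨q * X 2, by rw [map_mul, hq, pow_succ, mul_assoc]; simp [psi]⟩

theorem four_le {Γ : MvPolynomial (Fin 4) ℂ} (hΓ : Qt Γ) : 4 ≤ (psi (deh Γ)).natDegree := by
  refine le_trans (Polynomial.le_natDegree_of_ne_zero ?_)
    (Polynomial.natDegree_map_le (f := (constantCoeff : MvPolynomial (Fin 2) ℂ →+* ℂ)))
  have h : ((Polynomial.mapAlgHom (aeval (0 : Fin 2 → ℂ))).comp psi).comp deh =
      aeval (![1, 0, 0, Polynomial.X] : Fin 4 → Polynomial ℂ) := by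
    have h0 : (Fin.cons 1 X : Fin 4 → MvPolynomial (Fin 3) ℂ) = ![1, X 0, X 1, X 2] := by
      funext i
      fin_cases i <;> rfl
    ext1 i
    fin_cases i <;> simp [psi, deh, h0]
  have h1 : (psi (deh Γ)).map constantCoeff =
      aeval (![1, 0, 0, Polynomial.X] : Fin 4 → Polynomial ℂ) Γ := by
    rw [← h]
    simp [Polynomial.mapAlgHom]
  rw [h1, aeval_def, eval₂_eq', Polynomial.finsetSum_coeff,
    Finset.sum_eq_single_of_mem (Finsupp.single 3 4) (mem_support_iff.2 hΓ.2.1)]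
  · simpa [Fin.prod_univ_four] using hΓ.2.1
  · intro d hd h2
    have h3 := hΓ.1 (mem_support_iff.1 hd)
    rw [Finsupp.weight_apply, Finsupp.sum_fintype _ _ (by simp)] at h3
    simp only [Fin.sum_univ_four, Pi.one_apply, smul_eq_mul, mul_one] at h3
    by_cases h4 : d 3 = 4
    · exact (h2 (Finsupp.ext fun i => by fin_cases i <;> simp <;> omega)).elim
    · by_cases h5 : d 1 = 0 <;> by_cases h6 : d 2 = 0 <;>
        simp [Fin.prod_univ_four, h5, h6, Polynomial.coeff_X_pow, Ne.symm h4]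

/-- **DEG** -/
theorem degStmt : St91.DegStmt := by
  intro Γ F _ _ _ S hΓ
  let t : Fin 3 → F := fun i => S.y i.succ / S.y 0
  have e : (Fin.cons 1 t : Fin 4 → F) = (S.y 0)⁻¹ • S.y := by
    funext i
    refine Fin.cases ?_ (fun i => ?_) i
    · simp [S.y_ne 0]
    · simp [t, div_eq_inv_mul]
  have hk : ∀ p, aeval t p = 0 → deh Γ ∣ p := fun p hp => by
    have h1 := hom_isHomogeneous p.totalDegree p
    rw [← deh_hom (le_refl p.totalDegree), ← Brg.Hyp0.aeval_cons, e,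
      Brg.Hyp0.aeval_smul h1, mul_eq_zero] at hp
    rw [← deh_hom (le_refl p.totalDegree)]
    exact map_dvd _ ((S.ker _ _ h1).1 (hp.resolve_left (pow_ne_zero _ (inv_ne_zero (S.y_ne 0)))))
  have h0 : aeval t (deh Γ) = 0 := by
    rw [← Brg.Hyp0.aeval_cons, e, Brg.Hyp0.aeval_smul hΓ.1, (S.ker _ _ hΓ.1).2 dvd_rfl, mul_zero]
  have ht : adjoin ℂ (range t) = ⊤ := by
    have h1 : ∀ a ∈ Lef.chart ℂ S.y 0, a ∈ adjoin ℂ (range t) := by
      intro a ha
      refine (Algebra.adjoin_le (S := (adjoin ℂ (range t)).toSubalgebra) ?_) ha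
      rintro _ ⟨i, rfl⟩
      refine Fin.cases ?_ (fun i => ?_) i
      · simp [S.y_ne 0]
      · exact IntermediateField.subset_adjoin _ _ ⟨i, rfl⟩
    rw [eq_top_iff]
    rintro f -
    obtain ⟨a, ha, c, hc, -, rfl⟩ := S.frac f
    exact div_mem (h1 a ha) (h1 c hc)
  have h4 := four_le hΓ
  have hb := bez1 ht (c := deh Γ) (by rintro h; simp [h] at h4) h0
    ((Brg.Cubic.totalDegree_deh Γ).trans hΓ.1.totalDegree_le)
  let R := MvPolynomial (Fin 2) ℂ
  let u : Fin 2 → F := fun i => t i.castSucc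
  let _ : Algebra R F := (aeval (R := ℂ) u).toRingHom.toAlgebra
  have : IsScalarTower ℂ R F :=
    IsScalarTower.of_algebraMap_eq fun c => ((aeval (R := ℂ) u).commutes c).symm
  have hP : ∀ P : Polynomial R, P.natDegree < 4 → Polynomial.aeval (t 2) P = 0 → P = 0 := by
    intro P h1 h2
    obtain ⟨p, rfl⟩ := psi_surj P
    have h : ((Polynomial.aeval (R := R) (t 2)).restrictScalars ℂ).comp psi = aeval t := by
      ext1 i
      fin_cases i <;> simp [psi, RingHom.algebraMap_toAlgebra, u, R]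
    exact Polynomial.eq_zero_of_dvd_of_natDegree_lt
      (map_dvd _ (hk p ((DFunLike.congr_fun h p).symm.trans h2))) (h1.trans_le h4)
  have hu : AlgebraicIndependent ℂ u := algebraicIndependent_iff.2 fun r hr =>
    Polynomial.C_eq_zero.1 (hP (Polynomial.C r) (by simp) (by rwa [Polynomial.aeval_C]))
  have hd : dim ℂ F = 2 := by
    have := le_dim hu
    omega
  refine ⟨hd, ?_⟩
  have h5 : Lin (mx1 ℂ t) (oP S.P) := by
    rw [mx1, e]
    exact lin_mul ⟨0, S.y_ne 0⟩ (inv_ne_zero (S.y_ne 0))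
  have h6 := Loc.bnum_rep_lin h5 2 []
  have h7 := hb.2 (by omega)
  rw [hd] at h7
  refine h6.symm.trans (le_antisymm h7 ?_)
  have : FaithfulSMul R F := (faithfulSMul_iff_algebraMap_injective _ _).2 hu
  let K := FractionRing R
  let _ : Algebra K F := FractionRing.liftAlgebra R F
  have : IsScalarTower ℂ K F := IsScalarTower.of_algebraMap_eq fun c => by
    rw [IsScalarTower.algebraMap_apply ℂ R K, ← IsScalarTower.algebraMap_apply R K F,
      ← IsScalarTower.algebraMap_apply]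
  let s : Fin 2 → K := fun i => algebraMap R K (X i)
  have hs : adjoin ℂ (range s) = ⊤ :=
    Brg.Hyp0.adjoin_top_of_frac X fun q => ⟨q, aeval_X_left_apply q⟩
  have := eft_of_top hs
  let α := IsScalarTower.toAlgHom ℂ K F
  have hα : ∀ i, α (s i) = u i := fun i =>
    (IsScalarTower.algebraMap_apply R K F (X i)).symm.trans (aeval_X u i)
  have hK : dim ℂ K = 2 := le_antisymm (by simpa using dim_le_card hs)
    (le_dim (t := s) (AlgebraicIndependent.of_comp α (by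
      rw [show α ∘ s = u from funext hα]; exact hu)))
  have h8 : 4 ≤ deg α := by
    have h9 : 0 < deg α := (deg_pos_iff α).2 (hd.trans hK.symm)
    rw [deg_tower] at h9 ⊢
    have := Module.finite_of_finrank_pos h9
    have h10 : LinearIndependent R fun j : Fin 4 => t 2 ^ (j : ℕ) := by
      refine Fintype.linearIndependent_iff.2 fun c hc j => ?_
      simp_rw [Algebra.smul_def, ← Polynomial.aeval_monomial, ← map_sum] at hc
      have h11 := congrArg (Polynomial.lcoeff R j) (hP _ (Nat.lt_succ_of_le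
        (Polynomial.natDegree_sum_le_of_forall_le _ _ fun i _ =>
          (Polynomial.natDegree_monomial_le _).trans (Nat.le_of_lt_succ i.2))) hc)
      simpa [Polynomial.coeff_monomial, Fin.val_eq_val] using h11
    simpa using ((LinearIndependent.iff_fractionRing R K).1 h10).fintype_card_le_finrank
  have h9 := bnum_pb α (replicate 2 (mx1 ℂ s))
  rw [pn_eq hs hK, mul_one, List.map_replicate, pb_mx1, funext hα] at h9
  refine le_trans ?_ (sq_mono (a := mx1 ℂ u) (mxf_le ⟨0, one_ne_zero⟩ (Fin.cases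
    (mem_Sec_mxf (Fin.cons 1 t : Fin 4 → F) 0) fun i => mem_mx1 t _)) (free_mx1 u).nef
    (free_mx1 t).nef)
  exact le_trans (by exact_mod_cast h8) h9.ge

end Crest.Agent.X262.StNum
end
end

-- ▼ part X262/StNum81/Tr
section

/-!
# Row 262, G4 / START (helper81), part 2: from complex points to points in a field

* `Hm Ω Ω'` : partial homomorphisms; `Hm.up`, `Hm.res V`, `spec` : the three examples;
* `uP`, `ux`, `rel`, `sur`, `cv_ne`, `rel_cv` : the fields of `QM` and `Crv` over any field.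
-/

set_option autoImplicit false

noncomputable section

namespace Crest.Agent.X262.StNum

open Crest.Agent.X277 Crest.Agent.X277.BD Crest.Agent.X277.BD.Cyc
open Crest.Agent.X262.St91 MvPolynomial
open Set (range)

variable {Ω Ω' : Type} [Field Ω] [Algebra ℂ Ω] [Field Ω'] [Algebra ℂ Ω']
  {ι κ : Type} {om : Fin 6 → I2 → ℂ}

theorem ln_mul [Fintype κ] (π : ι → κ → ℂ) (c : Ω) (P : κ → Ω) (i : ι) :
    ln π (fun j => c * P j) i = c * ln π P i := by
  simp only [ln, Finset.mul_sum, mul_left_comm]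

theorem rel_mul {n : ℕ} {B : Fin n → Fin 4 → I2 → ℂ} {x : Fin 4 → Ω} {P : I2 → Ω}
    (h : Rel B x P) (c d : Ω) : Rel B (fun i => c * x i) fun j => d * P j := fun a => by
  have := congrArg (c * d * ·) (h a)
  simp only [Finset.mul_sum, mul_zero] at this
  rw [← this]
  exact Finset.sum_congr rfl fun i _ => by rw [ln_mul]; ring

theorem onS_mul {P : I2 → Ω} (h : OnS om P) {c : Ω} (hc : c ≠ 0) : OnS om fun j => c * P j where
  ne h0 := h.ne (funext fun j => (mul_eq_zero.1 (congrFun h0 j)).resolve_left hc)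
  skew i j := by rw [h.skew, mul_neg]
  plk i j k l := by linear_combination c ^ 2 * h.plk i j k l
  lin := funext fun i => by rw [ln_mul, h.lin, Pi.zero_apply, mul_zero]

omit [Algebra ℂ Ω] in
theorem par_eq {x y : ι → Ω} (h : Par x y) (hy : y ≠ 0) : ∃ c, x = fun i => c * y i := by
  obtain ⟨i, hi⟩ := Function.ne_iff.1 hy
  exact ⟨x i / y i, funext fun j => by rw [div_mul_eq_mul_div, eq_div_iff hi, h j i]⟩

/-- a partial homomorphism -/
structure Hm (Ω Ω' : Type) [Field Ω] [Algebra ℂ Ω] [Field Ω'] [Algebra ℂ Ω'] where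
  /-- the domain -/
  A : Subalgebra ℂ Ω
  /-- the map -/
  r : Ω → Ω'
  add : ∀ {x y}, x ∈ A → y ∈ A → r (x + y) = r x + r y
  mul : ∀ {x y}, x ∈ A → y ∈ A → r (x * y) = r x * r y
  alg : ∀ c : ℂ, r (algebraMap ℂ Ω c) = algebraMap ℂ Ω' c

namespace Hm

/-- the structure map -/
def up (Ω : Type) [Field Ω] [Algebra ℂ Ω] : Hm ℂ Ω :=
  ⟨⊤, algebraMap ℂ Ω, fun _ _ => map_add _ _ _, fun _ _ => map_mul _ _ _, fun _ => rfl⟩

/-- the residue map -/
def res (V : RZ ℂ Ω) : Hm Ω (Rf V) :=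
  ⟨{ V.1.toSubring with algebraMap_mem' := V.2 }, (plV V).r, Pl.r_add (p := plV V),
    Pl.r_mul (p := plV V), lnr_plV V⟩

variable (h : Hm Ω Ω')

theorem zero : h.r 0 = 0 := by simpa using h.alg 0

theorem one : h.r 1 = 1 := by simpa using h.alg 1

variable {h}

theorem neg {x : Ω} (hx : x ∈ h.A) : h.r (-x) = -h.r x := by
  rw [eq_neg_iff_add_eq_zero, ← h.add (neg_mem hx) hx, neg_add_cancel, zero]

theorem sub {x y : Ω} (hx : x ∈ h.A) (hy : y ∈ h.A) : h.r (x - y) = h.r x - h.r y := by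
  rw [sub_eq_add_neg, h.add hx (neg_mem hy), neg hy, sub_eq_add_neg]

theorem sum {s : Finset ι} {x : ι → Ω} (hx : ∀ i, x i ∈ h.A) :
    h.r (∑ i ∈ s, x i) = ∑ i ∈ s, h.r (x i) := by
  classical
  induction s using Finset.induction_on with
  | empty => simpa using h.zero
  | insert a s ha ih =>
    rw [Finset.sum_insert ha, Finset.sum_insert ha, h.add (hx a) (sum_mem fun i _ => hx i), ih]

theorem ln_mem [Fintype κ] (π : ι → κ → ℂ) {P : κ → Ω} (hP : ∀ j, P j ∈ h.A) (i : ι) :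
    ln π P i ∈ h.A := sum_mem fun j _ => mul_mem (h.A.algebraMap_mem _) (hP j)

theorem r_ln [Fintype κ] (π : ι → κ → ℂ) {P : κ → Ω} (hP : ∀ j, P j ∈ h.A) :
    (fun i => h.r (ln π P i)) = ln π fun j => h.r (P j) := funext fun i => by
  rw [ln, sum fun j => mul_mem (h.A.algebraMap_mem _) (hP j)]
  exact Finset.sum_congr rfl fun j _ => by rw [h.mul (h.A.algebraMap_mem _) (hP j), h.alg]

theorem r_aeval {y : κ → Ω} (hy : ∀ i, y i ∈ h.A) (q : MvPolynomial κ ℂ) :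
    aeval y q ∈ h.A ∧ h.r (aeval y q) = aeval (fun i => h.r (y i)) q := by
  induction q using MvPolynomial.induction_on with
  | C c => simpa using h.alg c
  | add q q' e e' => rw [map_add, map_add, h.add e.1 e'.1, e.2, e'.2]; exact ⟨add_mem e.1 e'.1, rfl⟩
  | mul_X q i e =>
    rw [map_mul, map_mul, aeval_X, aeval_X, h.mul e.1 (hy i), e.2]
    exact ⟨mul_mem e.1 (hy i), rfl⟩

theorem cv_mem (A : ι → MvPolynomial (Fin 2) ℂ) {t : Fin 2 → Ω} (ht : ∀ j, t j ∈ h.A) (i : ι) :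
    cv A t i ∈ h.A := (r_aeval ht _).1

theorem r_cv (A : ι → MvPolynomial (Fin 2) ℂ) {t : Fin 2 → Ω} (ht : ∀ j, t j ∈ h.A) :
    (fun i => h.r (cv A t i)) = cv A fun j => h.r (t j) := funext fun _ => (r_aeval ht _).2

theorem r_rel {n : ℕ} (B : Fin n → Fin 4 → I2 → ℂ) {x : Fin 4 → Ω} {P : I2 → Ω}
    (hx : ∀ i, x i ∈ h.A) (hP : ∀ j, P j ∈ h.A) (a : Fin n) :
    h.r (∑ i, x i * ln (B a) P i) = ∑ i, h.r (x i) * ln (B a) (fun j => h.r (P j)) i := by
  rw [sum fun i => mul_mem (hx i) (ln_mem _ hP i), ← r_ln _ hP]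
  exact Finset.sum_congr rfl fun i _ => h.mul (hx i) (ln_mem _ hP i)

theorem rel {n : ℕ} {B : Fin n → Fin 4 → I2 → ℂ} {x : Fin 4 → Ω} {P : I2 → Ω}
    (hx : ∀ i, x i ∈ h.A) (hP : ∀ j, P j ∈ h.A) (e : Rel B x P) :
    Rel B (fun i => h.r (x i)) fun j => h.r (P j) := fun a => by
  rw [← r_rel B hx hP, e a, zero]

theorem r_par {x y : ι → Ω} (hx : ∀ i, x i ∈ h.A) (hy : ∀ i, y i ∈ h.A) (i j : ι) :
    h.r (x i * y j - x j * y i) = h.r (x i) * h.r (y j) - h.r (x j) * h.r (y i) := by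
  rw [sub (mul_mem (hx i) (hy j)) (mul_mem (hx j) (hy i)), h.mul (hx i) (hy j), h.mul (hx j) (hy i)]

theorem onS {P : I2 → Ω} (hP : ∀ j, P j ∈ h.A) (e : OnS om P) (h0 : (fun j => h.r (P j)) ≠ 0) :
    OnS om fun j => h.r (P j) where
  ne := h0
  skew i j := by rw [e.skew, neg (hP _)]
  plk i j k l := by
    rw [← h.mul (hP _) (hP _), ← h.mul (hP _) (hP _), ← h.mul (hP _) (hP _),
      ← sub (mul_mem (hP _) (hP _)) (mul_mem (hP _) (hP _)),
      ← h.add (sub_mem (mul_mem (hP _) (hP _)) (mul_mem (hP _) (hP _))) (mul_mem (hP _) (hP _)),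
      e.plk, zero]
  lin := by rw [← r_ln _ hP, e.lin]; exact funext fun _ => h.zero

/-- the family is in the domain and its nonzero members stay nonzero -/
def Ok (h : Hm Ω Ω') (x : ι → Ω) : Prop := (∀ i, x i ∈ h.A) ∧ ∀ i, h.r (x i) = 0 → x i = 0

theorem Ok.ne {x : ι → Ω} (e : h.Ok x) (h0 : x ≠ 0) : (fun i => h.r (x i)) ≠ 0 :=
  fun h1 => h0 (funext fun i => e.2 i (congrFun h1 i))

theorem Ok.onS {P : I2 → Ω} (e : h.Ok P) (h0 : OnS om P) : OnS om fun j => h.r (P j) :=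
  Hm.onS e.1 h0 (e.ne h0.ne)

theorem ok_up (x : ι → ℂ) : (up Ω).Ok x :=
  ⟨fun _ => trivial, fun _ h => (map_eq_zero_iff _ (algebraMap ℂ Ω).injective).1 h⟩

end Hm

/-- **specialisation** to a complex point -/
theorem spec {μ : Type} [Finite ι] [Finite κ] [Finite μ] (x : ι → Ω) (y : κ → Ω) (z : μ → Ω)
    (w : Ω) : ∃ h : Hm Ω ℂ, h.Ok x ∧ h.Ok y ∧ h.Ok z ∧ (h.r w = 0 → w = 0) := by
  classical
  have hs := (((Set.finite_range x).union (Set.finite_range y)).union (Set.finite_range z)).insert w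
  obtain ⟨C, hC, ⟨χ⟩⟩ := Pf19.exists_spec (hs.union (hs.image (·⁻¹)))
  let h : Hm Ω ℂ := ⟨C, fun a => if ha : a ∈ C then χ ⟨a, ha⟩ else 0,
    fun ha hb => by rw [dif_pos ha, dif_pos hb, dif_pos (add_mem ha hb), ← map_add]; rfl,
    fun ha hb => by rw [dif_pos ha, dif_pos hb, dif_pos (mul_mem ha hb), ← map_mul]; rfl,
    fun c => by rw [dif_pos (C.algebraMap_mem c)]; exact χ.commutes c⟩
  have h1 : ∀ a ∈ insert w (range x ∪ range y ∪ range z), a ∈ h.A ∧ (h.r a = 0 → a = 0) := by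
    refine fun a ha => ⟨hC (.inl ha), fun h0 => by_contra fun h2 => ?_⟩
    have h3 := h.mul (hC (.inl ha)) (hC (.inr ⟨a, ha, rfl⟩))
    rw [mul_inv_cancel₀ h2, h.one, h0, zero_mul] at h3
    exact one_ne_zero h3
  exact ⟨h, forall_and.1 fun i => h1 _ (.inr (.inl (.inl ⟨i, rfl⟩))),
    forall_and.1 fun i => h1 _ (.inr (.inl (.inr ⟨i, rfl⟩))),
    forall_and.1 fun i => h1 _ (.inr (.inr ⟨i, rfl⟩)), (h1 w (.inl rfl)).2⟩

variable {M N : QM om}

theorem uP (M : QM om) {x : Fin 4 → Ω} {P P' : I2 → Ω} (hx : x ≠ 0) (h1 : OnS om P)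
    (h2 : OnS om P') (h3 : Rel M.B x P) (h4 : Rel M.B x P') : Par P P' := fun i j => by
  obtain ⟨h, e1, e2, e3, e4⟩ := spec x P P' (P i * P' j - P j * P' i)
  refine sub_eq_zero.1 (e4 ?_)
  rw [Hm.r_par e2.1 e3.1, sub_eq_zero]
  exact M.uP _ _ _ (e1.ne hx) (e2.onS h1) (e3.onS h2) (Hm.rel e1.1 e2.1 h3)
    (Hm.rel e1.1 e3.1 h4) i j

theorem ux (M : QM om) {x x' : Fin 4 → Ω} {P : I2 → Ω} (h1 : OnS om P) (h3 : Rel M.B x P)
    (h4 : Rel M.B x' P) : Par x x' := fun i j => by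
  obtain ⟨h, e1, e2, e3, e4⟩ := spec x x' P (x i * x' j - x j * x' i)
  refine sub_eq_zero.1 (e4 ?_)
  rw [Hm.r_par e1.1 e2.1, sub_eq_zero]
  exact M.ux _ _ _ (e3.onS h1) (Hm.rel e1.1 e3.1 h3) (Hm.rel e2.1 e3.1 h4) i j

theorem rel (M : QM om) {P : I2 → Ω} (h1 : OnS om P) : Rel M.B (ln M.π P) P := fun a => by
  obtain ⟨h, e1, -, -, e4⟩ := spec P P P (∑ i, ln M.π P i * ln (M.B a) P i)
  refine e4 ?_
  rw [Hm.r_rel _ (Hm.ln_mem _ e1.1) e1.1]
  have h2 := M.rel _ (e1.onS h1) a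
  rwa [← Hm.r_ln M.π e1.1] at h2

theorem sur (c : Crv M N) {P : I2 → Ω} (h1 : OnS om P) (h2 : ln M.π P = 0) :
    ∃ t : Fin 2 → Ω, t ≠ 0 ∧ Par P (cv c.A t) := by
  have h3 : ∀ h : Hm Ω ℂ, h.Ok P → ln M.π (fun j => h.r (P j)) = 0 := fun h e => by
    rw [← Hm.r_ln _ e.1, h2]
    exact funext fun _ => h.zero
  obtain ⟨h, e1, -⟩ := spec P P P 0
  obtain ⟨k, hk⟩ := (c.sur _ (e1.onS h1) (h3 h e1)).1
  refine ⟨ln (c.τ k) P, fun h0 => hk ?_, fun i j => ?_⟩
  · rw [← Hm.r_ln _ e1.1, h0]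
    exact funext fun _ => h.zero
  · obtain ⟨h, e1, -, -, e4⟩ := spec P P P
      (P i * cv c.A (ln (c.τ k) P) j - P j * cv c.A (ln (c.τ k) P) i)
    refine sub_eq_zero.1 (e4 ?_)
    have h4 := (c.sur _ (e1.onS h1) (h3 h e1)).2 k i j
    rw [← Hm.r_ln _ e1.1, ← Hm.r_cv _ (Hm.ln_mem _ e1.1)] at h4
    rwa [Hm.r_par e1.1 (Hm.cv_mem _ (Hm.ln_mem _ e1.1)), sub_eq_zero]

theorem cv_ne {A : ι → MvPolynomial (Fin 2) ℂ} (hA : ∀ t : Fin 2 → ℂ, t ≠ 0 → cv A t ≠ 0)
    {t : Fin 2 → Ω} (ht : t ≠ 0) : cv A t ≠ 0 := fun h0 => by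
  obtain ⟨h, e1, -⟩ := spec t t t 0
  refine hA _ (e1.ne ht) ?_
  rw [← Hm.r_cv _ e1.1, h0]
  exact funext fun _ => h.zero

theorem rel_cv {n : ℕ} {B : Fin n → Fin 4 → I2 → ℂ} {X : Fin 4 → MvPolynomial (Fin 2) ℂ}
    {A : I2 → MvPolynomial (Fin 2) ℂ} (hA : ∀ t : Fin 2 → ℂ, t ≠ 0 → Rel B (cv X t) (cv A t))
    {t : Fin 2 → Ω} (ht : t ≠ 0) : Rel B (cv X t) (cv A t) := fun a => by
  obtain ⟨h, e1, -, -, e4⟩ := spec t t t (∑ i, cv X t i * ln (B a) (cv A t) i)
  refine e4 ?_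
  have h2 := hA _ (e1.ne ht) a
  rw [← Hm.r_cv _ e1.1, ← Hm.r_cv _ e1.1] at h2
  rwa [Hm.r_rel _ (Hm.cv_mem _ e1.1) (Hm.cv_mem _ e1.1)]

end Crest.Agent.X262.StNum
end
end

-- ▼ part X262/StNum81/Num
section

/-!
# Row 262, G4 / START (helper81), part 3: the intersection numbers

* `mxf_cv` : the class of a curve without base points; `lin_crv` : points of the quartic curve;
* `half`   : the numbers of one model; `numStmt_of` : `St91.NumStmt`.
-/

set_option autoImplicit false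
set_option linter.unusedSectionVars false

noncomputable section

namespace Crest.Agent.X262.StNum

open Crest.Agent.X277 Crest.Agent.X277.BD Crest.Agent.X277.BD.Cyc Crest.Agent.X277.Pst
open Crest.Agent.X277.BD.Br (On oP)
open Crest.Agent.X262.St91 Crest.Agent.X262.Geo Crest.Agent.X262.Lin62 MvPolynomial
open Crest.Agent.X262.Top (Hyp)

variable {F : Type} [Field F] [Algebra ℂ F] {ι : Type} [Fintype ι] {om : Fin 6 → I2 → ℂ}
  {M N : QM om}

/-- normalisation of a family at a valuation ring -/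
theorem exists_nrm {s : ι → F} (hs : s ≠ 0) (V : RZ ℂ F) : ∃ i, s i ≠ 0 ∧
    V.v (s i) = (mxf ℂ s).val V ∧ (∀ j, (s i)⁻¹ * s j ∈ (Hm.res V).A) ∧
      (fun j => (Hm.res V).r ((s i)⁻¹ * s j)) ≠ 0 := by
  obtain ⟨i, hi⟩ := exists_val_mxf (k := ℂ) (Function.ne_iff.1 hs) V
  have h := ne_of_val hi
  refine ⟨i, h, hi, fun j => ?_, fun h0 => ?_⟩
  · rw [inv_mul_eq_div]
    exact (RZ.le_iff h).1 (hi ▸ mem_Sec_mxf s j V)
  · have h1 := congrFun h0 i
    rw [inv_mul_cancel₀ h, Hm.one] at h1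
    exact one_ne_zero h1

theorem lin_par {x y : ι → F} (h : Par x y) (hx : x ≠ 0) (hy : y ≠ 0) :
    Lin (mxf ℂ x) (mxf ℂ y) := by
  obtain ⟨c, rfl⟩ := par_eq h hy
  exact lin_mul (Function.ne_iff.1 hy) fun hc => hx (funext fun i => by simp [hc])

theorem ln_le {κ : Type} [Fintype κ] {π : ι → κ → ℂ} {p : κ → F} (h : ln π p ≠ 0) :
    mxf ℂ (ln π p) ≤ mxf ℂ p := by
  refine mxf_le (Function.ne_iff.1 h) fun i => Submodule.sum_mem _ fun j _ => ?_
  rw [← Algebra.smul_def]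
  exact Submodule.smul_mem _ _ (mem_Sec_mxf p j)

theorem mxf_cv {A : ι → MvPolynomial (Fin 2) ℂ} {d : ℕ} (h : ∀ i, (A i).IsHomogeneous d)
    (hA : ∀ t : Fin 2 → ℂ, t ≠ 0 → cv A t ≠ 0) {t : Fin 2 → F} (ht : t ≠ 0) :
    mxf ℂ (cv A t) = d • mxf ℂ t := by
  have key : ∀ V : RZ ℂ F, ∃ u : Fin 2 → F, (∀ j, u j ∈ (Hm.res V).A) ∧
      (fun j => (Hm.res V).r (u j)) ≠ 0 ∧
      ∀ i, V.v (cv A t i) = (d • mxf ℂ t).val V * V.v (cv A u i) := fun V => by
    obtain ⟨a, h0, h1, h2, h3⟩ := exists_nrm ht V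
    refine ⟨_, h2, h3, fun i => ?_⟩
    have h4 : cv A (fun j => (t a)⁻¹ * t j) i = _ := Brg.Hyp0.aeval_smul (h i) (t a)⁻¹ t
    rw [h4, val_nsmul, ← h1, ← map_pow, ← map_mul, ← mul_assoc, ← mul_pow, mul_inv_cancel₀ h0,
      one_pow, one_mul]
    rfl
  refine (eq_mxf (fun i V => ?_) fun V => ?_).symm
  · obtain ⟨u, h1, -, h2⟩ := key V
    rw [h2]
    exact mul_le_of_le_one_right' (RZ.le_one_iff.2 (Hm.cv_mem A h1 i))
  · obtain ⟨u, h1, h3, h2⟩ := key V
    have h4 := cv_ne hA h3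
    rw [← Hm.r_cv A h1] at h4
    obtain ⟨i, hi⟩ := Function.ne_iff.1 h4
    have h5 : V.v (cv A u i) = 1 := (Pl.r_ne_zero_iff (p := plV V)).1 hi
    exact ⟨i, by rw [h2, h5, mul_one]⟩

/-- points of the quartic curve -/
theorem lin_crv (c : Crv M N) {p : I2 → F} {y y' : Fin 4 → F} (hp : OnS om p) (hy : y ≠ 0)
    (hy' : y' ≠ 0) (h1 : Rel M.B y p) (h2 : Rel N.B y' p) (h0 : ln M.π p = 0) :
    ∃ a : BD ℂ F, Lin (mxf ℂ p) (4 • a) ∧ Lin (mxf ℂ y) (6 • a) ∧ Lin (mxf ℂ y') (2 • a) := by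
  obtain ⟨t, ht, h3⟩ := sur c hp h0
  have hA : ∀ t : Fin 2 → ℂ, t ≠ 0 → cv c.A t ≠ 0 := fun t h => (c.on t h).1.ne
  have hX : ∀ t : Fin 2 → ℂ, t ≠ 0 → cv c.X t ≠ 0 := fun t h => (c.on t h).2.1
  have hY : ∀ t : Fin 2 → ℂ, t ≠ 0 → cv c.Y t ≠ 0 := fun t h => (c.on t h).2.2.1
  refine ⟨mxf ℂ t, mxf_cv c.hA hA ht ▸ lin_par h3 hp.ne (cv_ne hA ht), ?_, ?_⟩ <;>
    obtain ⟨e, rfl⟩ := par_eq h3 (cv_ne hA ht)
  · refine mxf_cv c.hX hX ht ▸ lin_par (ux M hp h1 ?_) hy (cv_ne hX ht)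
    simpa using rel_mul (rel_cv (fun t h => (c.on t h).2.2.2.1) ht) 1 e
  · refine mxf_cv c.hY hY ht ▸ lin_par (ux N hp h2 ?_) hy' (cv_ne hY ht)
    simpa using rel_mul (rel_cv (fun t h => (c.on t h).2.2.2.2.1) ht) 1 e

/-- some valuation ring is centred on the curve -/
theorem exists_ctr (c : Crv M N) (S : Hyp 3 M.Γ F) {p : I2 → F} (hp : OnS om p)
    (h1 : Rel M.B S.y p) : ∃ V : RZ ℂ F, ∀ i, V.v (ln M.π p i) < (mxf ℂ p).val V := by
  obtain ⟨h2, h3, -, h4, -, h5, h6⟩ := c.on ![1, 0] fun h => one_ne_zero (congrFun h 0)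
  obtain ⟨a, ha⟩ := Function.ne_iff.1 h3
  set x := cv c.X (![1, 0] : Fin 2 → ℂ)
  have hk := Brg.Hyp0.GP.ker (G := M.Γ) S.ker M.qt.1 (S.y_ne a)
  have := RingHom.ker_isPrime (aeval (R := ℂ) ((x a)⁻¹ • x))
  obtain ⟨V0, h7, h8⟩ := Cns.exists_val (aeval (R := ℂ) ((S.y a)⁻¹ • S.y)).toRingHom
    (RingHom.ker (aeval (R := ℂ) ((x a)⁻¹ • x))) fun q hq => by
      have h : q ∈ RingHom.ker (Brg.Hyp0.pres ℂ S.y a) :=
        Subtype.ext ((Brg.Hyp0.coe_pres a q).trans hq)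
      rw [hk] at h
      refine Ideal.span_le.2 ?_ h
      rintro _ (rfl | rfl)
      · rw [SetLike.mem_coe, RingHom.mem_ker, Brg.Hyp0.aeval_smul M.qt.1]
        exact mul_eq_zero_of_right _ h6
      · simpa [RingHom.mem_ker, sub_eq_zero] using inv_mul_cancel₀ ha
  let V : RZ ℂ F := ⟨V0, fun a => by simpa using h7 (C a)⟩
  have h9 : ∀ j, (S.y a)⁻¹ * S.y j ∈ (Hm.res V).A := fun j =>
    show _ ∈ V0 by simpa using h7 (X j)
  have h10 : (fun j => (Hm.res V).r ((S.y a)⁻¹ * S.y j)) =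
      fun j => (Hm.up (Rf V)).r ((x a)⁻¹ * x j) := funext fun j => by
    have h := (h8 (X j - C ((x a)⁻¹ * x j))).not.2 (by simp [RingHom.mem_ker])
    rw [Cns.un_iff_val] at h
    have h' := not_not.1 ((Pl.r_ne_zero_iff (p := plV V)).not.2 h)
    refine sub_eq_zero.1 (Eq.trans ?_ h')
    rw [show (aeval (R := ℂ) ((S.y a)⁻¹ • S.y)).toRingHom (X j - C ((x a)⁻¹ * x j)) =
      (S.y a)⁻¹ * S.y j - algebraMap ℂ F ((x a)⁻¹ * x j) by simp]
    exact ((Hm.sub (h9 j) ((Hm.res V).A.algebraMap_mem _)).trans (by rw [Hm.alg]; rfl)).symm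
  obtain ⟨b, hb, e1, e2, e3⟩ := exists_nrm hp.ne V
  have e4 := Hm.rel h9 e2 (rel_mul h1 _ _)
  rw [h10] at e4
  have e5 := (Hm.ok_up (Ω := Rf V) _).onS h2
  obtain ⟨e, e6⟩ := par_eq (uP M ((Hm.ok_up fun j => (x a)⁻¹ * x j).ne fun h =>
    one_ne_zero ((inv_mul_cancel₀ ha).symm.trans (congrFun h a)))
    (Hm.onS e2 (onS_mul hp (inv_ne_zero hb)) e3) e5 e4
    (Hm.rel (Hm.ok_up _).1 (Hm.ok_up _).1 (by simpa using rel_mul h4 (x a)⁻¹ 1))) e5.ne
  refine ⟨V, fun i => ?_⟩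
  have e7 := congrFun (Hm.r_ln M.π e2) i
  rw [e6, ln_mul M.π e, ← Hm.r_ln M.π (Hm.ok_up _).1, h5] at e7
  have e8 : V.v (ln M.π (fun j => (p b)⁻¹ * p j) i) < 1 :=
    (Pl.r_eq_zero (p := plV V) (Hm.ln_mem M.π e2 i)).1
      (e7.trans (mul_eq_zero_of_right e (Hm.up (Rf V)).zero))
  rw [ln_mul, inv_mul_eq_div, map_div₀] at e8
  exact e1 ▸ (div_lt_one₀ (RZ.pos hb)).1 e8

variable [Algebra.EssFiniteType ℂ F]

theorem dg_mxf {V : RZ ℂ F} (hV : Dvs V) {s : ι → F} {i : ι} (hi : s i ≠ 0)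
    (h : ∀ j, (s i)⁻¹ * s j ∈ (Hm.res V).A) {a : BD ℂ (Rf V)} {m : ℕ}
    (e : Lin (mxf ℂ fun j => (Hm.res V).r ((s i)⁻¹ * s j)) (m • a)) :
    dg V [mxf ℂ s] = m * (have := essFT_Rf hV; bnum [a]) := by
  have := essFT_Rf hV
  simp only [inv_mul_eq_div] at h e
  have h1 := dg_rep hV hi h (AlgHom.id ℂ (Rf V)) (u := fun j => (plV V).r (s j / s i))
    (fun _ => rfl) 1
  rw [deg_id, Nat.cast_one, one_mul] at h1
  exact h1.trans ((e.bnum_eq []).trans (bnum_nsmul m a []))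

/-- degrees on a divisor centred on the curve -/
theorem dg_crv (c : Crv M N) {p : I2 → F} {y y' : Fin 4 → F} (hp : OnS om p) (hy : y ≠ 0)
    (hy' : y' ≠ 0) (h1 : Rel M.B y p) (h2 : Rel N.B y' p) {V : RZ ℂ F} (hV : Dvs V)
    (h : ∀ i, V.v (ln M.π p i) < (mxf ℂ p).val V) : ∃ n : ℤ, dg V [mxf ℂ p] = 4 * n ∧
      dg V [mxf ℂ y] = 6 * n ∧ dg V [mxf ℂ y'] = 2 * n := by
  obtain ⟨b, hb, e1, e2, e3⟩ := exists_nrm hp.ne V
  obtain ⟨a, ha, -, e4, e5⟩ := exists_nrm hy V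
  obtain ⟨a', ha', -, e6, e7⟩ := exists_nrm hy' V
  obtain ⟨u, u1, u2, u3⟩ := lin_crv c (Hm.onS e2 (onS_mul hp (inv_ne_zero hb)) e3) e5 e7
    (Hm.rel e4 e2 (rel_mul h1 _ _)) (Hm.rel e6 e2 (rel_mul h2 _ _)) (by
      rw [← Hm.r_ln M.π e2]
      refine funext fun i => (Pl.r_eq_zero (p := plV V) (Hm.ln_mem M.π e2 i)).2 ?_
      change V.v _ < 1
      rw [ln_mul, inv_mul_eq_div, map_div₀]
      exact (div_lt_one₀ (RZ.pos hb)).2 (e1 ▸ h i))
  exact ⟨_, dg_mxf hV hb e2 u1, dg_mxf hV ha e4 u2, dg_mxf hV ha' e6 u3⟩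

theorem cnt {r f q q' : BD ℂ F} (h : ∀ V, Dvs V → od V r ≠ 0 → ∃ n : ℤ, dg V [f] = 4 * n ∧
    dg V [q] = 6 * n ∧ dg V [q'] = 2 * n) :
    ∃ e : ℤ, bnum [r, f] = 4 * e ∧ bnum [r, q] = 6 * e ∧ bnum [r, q'] = 2 * e := by
  have h9 : bnum [r, f - 2 • q'] = 0 := bnum_eq_zero fun V hV h0 => by
    obtain ⟨n, e1, -, e3⟩ := h V hV h0
    rw [dg_sub, dg_nsmul, e1, e3]
    push_cast
    ring
  have h10 : bnum [r, q - 3 • q'] = 0 := bnum_eq_zero fun V hV h0 => by
    obtain ⟨n, -, e2, e3⟩ := h V hV h0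
    rw [dg_sub, dg_nsmul, e2, e3]
    push_cast
    ring
  obtain ⟨e, he⟩ : 2 ∣ bnum [r, q'] := by
    obtain ⟨T, -, e1, e2, e3⟩ := exists_cyc r [q'] ∅ (by simp)
    rw [e3]
    refine Finset.dvd_sum fun V hV => ?_
    obtain ⟨n, -, -, e4⟩ := h V (e1 V hV) (e2 V hV (by simp))
    exact Dvd.dvd.mul_left ⟨n, e4⟩ _
  rw [bnum_sub2, bnum_nsmul2] at h9 h10
  push_cast at h9 h10
  exact ⟨e, by omega, by omega, he⟩

theorem pos_On {P : Lef.PModel ℂ F} (hd : dim ℂ F = 2) {a b : BD ℂ F} (ha : a ∈ On P)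
    (hb : b ∈ On P) (h : a ≤ b) (h1 : b - a ≠ 0) : 0 < bnum [b - a, oP P] := by
  by_contra hc
  have h0 := sub_nonneg.2 h
  refine h1 (eq_On (sub_mem hb ha) (zero_mem _) fun V hV => ?_)
  have e2 := od_mul_le (l := [oP P]) h0 (by simpa using Br.free_oP.nef) hV.dvs
  have e3 : 0 < dg V [oP P] := dg_pos (isMod_oP P) hV (d := 1) hd
  rw [map_zero]
  by_contra e5
  exact hc ((mul_pos (lt_of_le_of_ne (od_nonneg h0) (Ne.symm e5)) e3).trans_le e2)

/-- the numbers of one model -/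
theorem half (c : Crv M N) (S : Hyp 3 M.Γ F) {p : I2 → F} {y' : Fin 4 → F} (hp : OnS om p)
    (hy' : y' ≠ 0) (h1 : Rel M.B S.y p) (h2 : Rel N.B y' p) (hd : dim ℂ F = 2)
    (h4 : bnum [oP S.P, oP S.P] = 4) (hf : mxf ℂ p ∈ On S.P) : ∃ e : ℤ, 0 < e ∧
      bnum [mxf ℂ p - oP S.P, mxf ℂ p] = 4 * e ∧ bnum [mxf ℂ p - oP S.P, oP S.P] = 6 * e ∧
      bnum [mxf ℂ p - oP S.P, mxf ℂ y'] = 2 * e := by
  have hy : S.y ≠ 0 := fun h => S.y_ne 0 (congrFun h 0)
  have hq : oP S.P = mxf ℂ S.y := rfl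
  have h0 : ln M.π p ≠ 0 := fun h0 => by
    obtain ⟨a, -, h5, -⟩ := lin_crv c hp hy hy' h1 h2 h0
    rw [hq, h5.bnum_eq, bnum_nsmul, bnum_swap, h5.bnum_eq, bnum_nsmul] at h4
    omega
  have h5 : Lin (mxf ℂ (ln M.π p)) (oP S.P) := hq ▸ lin_par (ux M hp (rel M hp) h1) h0 hy
  have h6 : mxf ℂ (ln M.π p) ≤ mxf ℂ p := ln_le h0
  have h7 : ∀ l, bnum ((mxf ℂ p - oP S.P) :: l) = bnum ((mxf ℂ p - mxf ℂ (ln M.π p)) :: l) :=
    fun l => by rw [bnum_sub, bnum_sub, h5.bnum_eq]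
  obtain ⟨e, e1, e2, e3⟩ := cnt (r := mxf ℂ p - mxf ℂ (ln M.π p)) fun V hV h =>
    dg_crv c hp hy hy' h1 h2 hV fun i => (mem_Sec_mxf (k := ℂ) (ln M.π p) i V).trans_lt
      (lt_of_le_of_ne (h6 V) fun e => h (by
        rw [od_eq_zero hV, val_sub, e]
        exact div_self (val_ne _ _)))
  have h8 : mxf ℂ p - mxf ℂ (ln M.π p) ≠ 0 := fun e0 => by
    obtain ⟨V, hV⟩ := exists_ctr c S hp h1
    obtain ⟨i, hi⟩ := exists_val_mxf (k := ℂ) (Function.ne_iff.1 h0) V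
    exact (hV i).ne (hi.trans (congrArg (fun a => BD.val a V) (sub_eq_zero.1 e0).symm))
  have h11 := pos_On hd (Lin.mem_On h5 Br.oP_mem) hf h6 h8
  rw [hq, e2] at h11
  exact ⟨e, by omega, (h7 _).trans e1, (h7 _).trans e2, (h7 _).trans e3⟩

/-- **NUM** -/
theorem numStmt_of (hO : OnStmt) (hD : DegStmt) : NumStmt := by
  intro om G F _ _ _ Z
  obtain ⟨h1, h2, -⟩ := hO om G F Z
  obtain ⟨hd, h3⟩ := hD _ F Z.S G.M.qt
  obtain ⟨-, h4⟩ := hD _ F Z.T G.N.qt
  obtain ⟨e, he, a1, a2, a3⟩ := half G.a Z.S Z.on (fun h => Z.T.y_ne 0 (congrFun h 0)) Z.relS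
    Z.relT hd h3 h1
  obtain ⟨e', -, b1, b2, b3⟩ := half G.b Z.T Z.on (fun h => Z.S.y_ne 0 (congrFun h 0)) Z.relT
    Z.relS hd h4 h2
  change bnum [_, oP Z.T.P] = _ at a3
  change bnum [_, oP Z.S.P] = _ at b3
  rw [bnum_sub] at a1 a2 a3 b1 b2 b3
  rw [bnum_swap (oP _)] at a1 b1 b3
  exact ⟨e, he, by omega, by omega, by omega, by omega⟩

theorem numStmt (hO : OnStmt) : NumStmt := numStmt_of hO degStmt

end Crest.Agent.X262.StNum
end
end

-- ▼ part X262/Bv3/Val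
section

/-!
# Row 262, G4 / BV (helper3), part 1: a quartic without lines along a line

* `NoL.field`, `exists_unit` : no line over a field, over a valuation ring;
* `eq_prod`  : the restriction of the quartic to a line with four distinct roots;
* `sum_mxf`  : the hyperplane classes of the four points add up to four times the Plücker class.
-/

set_option autoImplicit false
set_option linter.unusedSectionVars false

open MvPolynomial

noncomputable section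

namespace Crest.Agent.X262.Bv3

open Crest.Agent.X277 Crest.Agent.X277.BD Crest.Agent.X277.BD.Cyc
open Crest.Agent.X262.St91 Crest.Agent.X262.Geo
open Crest.Agent.X262.Brg.Hyp0 (aeval_smul)

attribute [local irreducible] mxf

variable {Γ : MvPolynomial (Fin 4) ℂ} {K : Type} [Field K] [Algebra ℂ K]

theorem nol_field (h : NoL Γ) {u v : Fin 4 → K}
    (H : ∀ s t : ℂ, aeval (s • u + t • v) Γ = 0) : Par u v := by
  classical
  intro i j
  by_contra h0
  rw [← Ne, ← sub_ne_zero] at h0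
  obtain ⟨C, hC, ⟨χ⟩⟩ := Pf19.exists_spec (K := K)
    (((Set.finite_range u).union (Set.finite_range v)).insert (u i * v j - u j * v i)⁻¹)
  let u' : Fin 4 → C := fun l => ⟨u l, hC (.inr (.inl ⟨l, rfl⟩))⟩
  let v' : Fin 4 → C := fun l => ⟨v l, hC (.inr (.inr ⟨l, rfl⟩))⟩
  have h1 := h (χ ∘ u') (χ ∘ v') (fun s t => by
    have h2 : aeval (s • u' + t • v') Γ = 0 := Subtype.ext (by
      rw [← C.coe_val, ← AlgHom.comp_apply, comp_aeval]
      exact H s t)
    have h3 := congrArg χ h2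
    rw [← AlgHom.comp_apply, comp_aeval, map_zero] at h3
    rw [← coe_aeval_eq_eval, ← h3]
    change aeval _ Γ = _
    congr 2
    funext l
    simp) i j
  have h4 : (u' i * v' j - u' j * v' i) * ⟨_, hC (.inl rfl)⟩ = 1 :=
    Subtype.ext (mul_inv_cancel₀ h0)
  have h5 := congrArg χ h4
  rw [map_mul, map_sub, map_mul, map_mul, show χ _ * χ _ = χ _ * χ _ from h1, sub_self, zero_mul,
    map_one] at h5
  exact zero_ne_one h5

theorem aeval_mem {V : RZ ℂ K} {z : Fin 4 → K} (hz : ∀ i, z i ∈ V.1) : V.v (aeval z Γ) ≤ 1 :=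
  RZ.le_one_iff.2 (r_aeval (lnr_plV V) hz Γ).1

theorem smul_mem {V : RZ ℂ K} (c : ℂ) {z : K} (hz : z ∈ V.1) : c • z ∈ V.1 :=
  RZ.le_one_iff.1 ((V.v_smul_le c z).trans (RZ.le_one_iff.2 hz))

theorem r_smul {V : RZ ℂ K} (c : ℂ) {z : K} (hz : z ∈ V.1) :
    (plV V).r (c • z) = c • (plV V).r z := by
  rw [Algebra.smul_def, Pl.r_mul (p := plV V) (V.2 c) hz, lnr_plV V c, Algebra.smul_def]

theorem exists_unit (h : NoL Γ) (V : RZ ℂ K) {e f : Fin 4 → K} (he : ∀ i, e i ∈ V.1)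
    (hf : ∀ i, f i ∈ V.1) {a b : Fin 4} (h1 : e a * f b - e b * f a = 1) :
    ∃ s t : ℂ, V.v (aeval (s • e + t • f) Γ) = 1 := by
  by_contra h0
  push Not at h0
  have h2 := nol_field h (u := fun i => (plV V).r (e i)) (v := fun i => (plV V).r (f i))
    (fun s t => by
      have h3 := (r_aeval (lnr_plV V) (y := s • e + t • f)
        (fun i => add_mem (smul_mem s (he i)) (smul_mem t (hf i))) Γ).2
      rw [not_not.1 ((Pl.r_ne_zero_iff (p := plV V)).not.2 (h0 s t))] at h3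
      rw [h3]
      congr 2
      funext i
      rw [Pi.add_apply, Pi.add_apply, Pi.smul_apply, Pi.smul_apply, Pi.smul_apply, Pi.smul_apply,
        Pl.r_add (p := plV V) (smul_mem s (he i)) (smul_mem t (hf i)), r_smul s (he i),
        r_smul t (hf i)]) a b
  have h4 := congrArg (plV V).r h1
  rw [Pl.r_sub (p := plV V) (mul_mem (he a) (hf b)) (mul_mem (he b) (hf a)),
    Pl.r_mul (p := plV V) (he a) (hf b), Pl.r_mul (p := plV V) (he b) (hf a), h2, sub_self,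
    Pl.r_one] at h4
  exact zero_ne_one h4

/-- congruent points have congruent values -/
theorem v_aeval_eq {V : RZ ℂ K} {z z' : Fin 4 → K} (hz : ∀ i, z i ∈ V.1)
    (h : ∀ i, V.v (z' i - z i) < 1) (h1 : V.v (aeval z Γ) = 1) : V.v (aeval z' Γ) = 1 := by
  have h2 : ∀ i, z' i - z i ∈ V.1 := fun i => RZ.le_one_iff.1 (h i).le
  have h3 : ∀ i, z' i ∈ V.1 := fun i => by simpa using add_mem (h2 i) (hz i)
  replace h1 := (Pl.r_ne_zero_iff (p := plV V)).2 h1
  refine (Pl.r_ne_zero_iff (p := plV V)).1 ?_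
  rw [(r_aeval (lnr_plV V) hz Γ).2] at h1
  rw [(r_aeval (lnr_plV V) h3 Γ).2]
  convert h1 using 3
  funext i
  rw [← sub_eq_zero, ← Pl.r_sub (p := plV V) (h3 i) (hz i), Pl.r_eq_zero (p := plV V) (h2 i)]
  exact h i

/-- a generic combination -/
theorem exists_gen (V : RZ ℂ K) {I : Type} [Finite I] (A B : I → K) :
    ∃ μ : ℂ, ∀ i, max (V.v (A i)) (V.v (B i)) ≤ V.v (B i - μ • A i) := by
  have h1 : ∀ i, {μ : ℂ | V.v (B i - μ • A i) < max (V.v (A i)) (V.v (B i))}.Finite := fun i => by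
    refine Set.Subsingleton.finite fun μ h ν h' => by_contra fun hne => ?_
    have h2 : V.v (A i) < max (V.v (A i)) (V.v (B i)) := by
      have h3 := V.v.map_sub_lt h' h
      rwa [sub_sub_sub_cancel_left, ← sub_smul, Algebra.smul_def, map_mul,
        V.v_alg (sub_ne_zero.2 hne), one_mul] at h3
    have h4 := V.v.map_add_lt h ((V.v_smul_le μ (A i)).trans_lt h2)
    rw [sub_add_cancel] at h4
    exact (max_lt h2 h4).false
  obtain ⟨μ, hμ⟩ := (Set.finite_iUnion h1).exists_notMem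
  exact ⟨μ, fun i => not_lt.1 fun h => hμ (Set.mem_iUnion.2 ⟨i, h⟩)⟩

/-- the quartic along a line -/
def lnP (Γ : MvPolynomial (Fin 4) ℂ) (u v : Fin 4 → K) : Polynomial K :=
  aeval (fun j => Polynomial.C (u j) + Polynomial.X * Polynomial.C (v j)) Γ

theorem aeval_lnP {L : Type} [Field L] [Algebra ℂ L] [Algebra K L] [IsScalarTower ℂ K L]
    (u v : Fin 4 → K) (t : L) : Polynomial.aeval t (lnP Γ u v) =
      aeval (fun j => algebraMap K L (u j) + t * algebraMap K L (v j)) Γ := by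
  have h := DFunLike.congr_fun (comp_aeval (R := ℂ)
    (fun j => Polynomial.C (u j) + Polynomial.X * Polynomial.C (v j))
    ((Polynomial.aeval (R := K) t).restrictScalars ℂ)) Γ
  refine Eq.trans h ?_
  simp only [AlgHom.coe_restrictScalars', map_add, map_mul, Polynomial.aeval_C, Polynomial.aeval_X]

theorem eval_lnP (u v : Fin 4 → K) (t : K) : (lnP Γ u v).eval t = aeval (u + t • v) Γ := by
  rw [← Polynomial.coe_aeval_eq_eval, aeval_lnP]
  rfl

theorem natDegree_lnP (hΓ : Γ.IsHomogeneous 4) (u v : Fin 4 → K) : (lnP Γ u v).natDegree ≤ 4 := by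
  have h := aeval_natDegree_le (n := 1) (map (algebraMap ℂ K) Γ) (hΓ.map _).totalDegree_le
    (fun j => Polynomial.C (u j) + Polynomial.X * Polynomial.C (v j)) fun j => by compute_degree
  rwa [aeval_map_algebraMap] at h

theorem lnP_ne (h : NoL Γ) {u v : Fin 4 → K} (hΓ : Γ.IsHomogeneous 4) (h0 : ¬ Par u v) :
    lnP Γ u v ≠ 0 := fun h1 => h0 (nol_field h fun s t => by
  have : Infinite K := Infinite.of_injective _ (algebraMap ℂ K).injective
  have h2 : lnP Γ (t • v) u = 0 := by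
    refine Polynomial.eq_zero_of_infinite_isRoot _
      ((Set.finite_singleton 0).infinite_compl.mono fun r hr => ?_)
    have h3 := congrArg (Polynomial.eval (r⁻¹ * algebraMap ℂ K t)) h1
    rw [eval_lnP, Polynomial.eval_zero] at h3
    have h4 := aeval_smul hΓ r (u + (r⁻¹ * algebraMap ℂ K t) • v)
    rw [h3, mul_zero, smul_add, smul_smul, mul_inv_cancel_left₀ hr, algebraMap_smul,
      add_comm] at h4
    exact (eval_lnP _ _ _).trans h4
  have h5 := congrArg (Polynomial.eval (algebraMap ℂ K s)) h2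
  rwa [eval_lnP, Polynomial.eval_zero, algebraMap_smul, add_comm] at h5)

theorem eq_prod (hΓ : Γ.IsHomogeneous 4) {u v : Fin 4 → K} {I : Type} [Fintype I]
    (hI : Fintype.card I = 4) {s : I → K} (hs : Function.Injective s)
    (h : ∀ i, aeval (u + s i • v) Γ = 0) (α β : K) :
    aeval (α • u + β • v) Γ = aeval v Γ * ∏ i, (β - s i * α) := by
  classical
  have : Infinite K := Infinite.of_injective _ (algebraMap ℂ K).injective
  have h1 : ∏ i, (Polynomial.X - Polynomial.C (s i)) ∣ lnP Γ u v :=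
    Fintype.prod_dvd_of_coprime (Polynomial.pairwise_coprime_X_sub_C hs)
      fun i => Polynomial.dvd_iff_isRoot.2 ((eval_lnP _ _ _).trans (h i))
  have h2 := Polynomial.eq_leadingCoeff_mul_of_monic_of_dvd_of_natDegree_le
    (Polynomial.monic_prod_X_sub_C s _) h1 (by simpa [hI] using natDegree_lnP hΓ u v)
  set c := (lnP Γ u v).leadingCoeff
  have h3 : ∀ α β : K, aeval (α • u + β • v) Γ = c * ∏ i, (β - s i * α) := fun α β => by
    have h4 : lnP Γ (β • v) u =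
        Polynomial.C c * ∏ i, (Polynomial.C β - Polynomial.C (s i) * Polynomial.X) := by
      refine Polynomial.eq_of_infinite_eval_eq _ _
        ((Set.finite_singleton 0).infinite_compl.mono fun r hr => ?_)
      have h5 := congrArg (Polynomial.eval (r⁻¹ * β)) h2
      have h6 := aeval_smul hΓ r (u + (r⁻¹ * β) • v)
      rw [smul_add, smul_smul, mul_inv_cancel_left₀ hr, add_comm, ← eval_lnP, ← eval_lnP,
        h5] at h6
      refine h6.trans ?_
      simp only [Polynomial.eval_mul, Polynomial.eval_C, Polynomial.eval_prod,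
        Polynomial.eval_sub, Polynomial.eval_X]
      rw [← hI, ← Finset.card_univ, ← Finset.prod_const, mul_left_comm, ← Finset.prod_mul_distrib]
      exact congrArg _ (Finset.prod_congr rfl fun i _ => by
        rw [mul_sub, mul_inv_cancel_left₀ hr, mul_comm])
    have h7 := congrArg (Polynomial.eval α) h4
    rw [eval_lnP, add_comm] at h7
    simpa [Polynomial.eval_prod] using h7
  have h8 := h3 0 1
  simp only [zero_smul, one_smul, zero_add, mul_zero, sub_zero, Finset.prod_const_one,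
    mul_one] at h8
  rw [h8, h3]

theorem v_le_mxf {k ι : Type} [Field k] [Algebra k K] [Fintype ι] (s : ι → K) (i : ι) (V : RZ k K) :
    V.v (s i) ≤ (mxf k s).val V := mem_Sec_mxf s i V

theorem alg1 {u v : Fin 4 → K} {a b : Fin 4} (hw : wd u v (a, b) ≠ 0) (s : K) (j : Fin 4) :
    u j + s * v j = (u a + s * v a) * (wd u v (j, b) / wd u v (a, b)) +
      (u b + s * v b) * (wd u v (a, j) / wd u v (a, b)) := by
  field_simp
  simp only [wd]
  ring

theorem alg2 {u v : Fin 4 → K} {a b : Fin 4} (l m : K) (j : Fin 4) :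
    (l * v b - m * v a) / wd u v (a, b) * u j + (m * u a - l * u b) / wd u v (a, b) * v j =
      l * (wd u v (j, b) / wd u v (a, b)) + m * (wd u v (a, j) / wd u v (a, b)) := by
  simp only [wd]
  ring

theorem alg3 {u v : Fin 4 → K} {a b : Fin 4} (hw : wd u v (a, b) ≠ 0) (l m s : K) :
    ((m * u a - l * u b) / wd u v (a, b) - s * ((l * v b - m * v a) / wd u v (a, b))) *
      wd u v (a, b) = -(l * (u b + s * v b) - m * (u a + s * v a)) := by
  field_simp
  ring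

theorem alg4 {u v : Fin 4 → K} {a b : Fin 4} (hw : wd u v (a, b) ≠ 0) :
    wd u v (a, b) / wd u v (a, b) * (wd u v (a, b) / wd u v (a, b)) -
      wd u v (b, b) / wd u v (a, b) * (wd u v (a, a) / wd u v (a, b)) = 1 := by
  rw [div_self hw]
  simp [wd]

/-- **the norm of the hyperplane class** -/
theorem sum_mxf (h : NoL Γ) {u v : Fin 4 → K} (h0 : ∃ ij, wd u v ij ≠ 0) {I : Type} [Fintype I]
    (hI : Fintype.card I = 4) {s : I → K} {c : K} (hc : c ≠ 0)
    (H : ∀ α β : K, aeval (α • u + β • v) Γ = c * ∏ i, (β - s i * α)) :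
    ∑ i, mxf ℂ (u + s i • v) + pr ℂ c = 4 • mxf ℂ (wd u v) := by
  refine ext' fun V => ?_
  obtain ⟨⟨a, b⟩, hab⟩ := exists_val_mxf (k := ℂ) h0 V
  have hw : wd u v (a, b) ≠ 0 := ne_of_val hab
  have hm : ∀ ij, wd u v ij / wd u v (a, b) ∈ V.1 := fun ij =>
    (RZ.le_iff hw).1 ((v_le_mxf (wd u v) ij V).trans hab.ge)
  obtain ⟨e, he⟩ : ∃ e : Fin 4 → K, ∀ j, e j = wd u v (j, b) / wd u v (a, b) := ⟨_, fun _ => rfl⟩
  obtain ⟨f, hf⟩ : ∃ f : Fin 4 → K, ∀ j, f j = wd u v (a, j) / wd u v (a, b) := ⟨_, fun _ => rfl⟩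
  obtain ⟨z, hz⟩ : ∃ z : I → Fin 4 → K, ∀ i, u + s i • v = z i := ⟨_, fun _ => rfl⟩
  have hz' : ∀ i j, z i j = u j + s i * v j := fun i j => (congrFun (hz i) j).symm
  have he' : ∀ j, e j ∈ V.1 := fun j => (he j).symm ▸ hm (j, b)
  have hf' : ∀ j, f j ∈ V.1 := fun j => (hf j).symm ▸ hm (a, j)
  have h1 : ∀ i j, z i j = z i a * e j + z i b * f j := fun i j => by
    rw [hz', hz' i a, hz' i b, he, hf]
    exact alg1 hw _ _
  have h2 : ∀ i, ∃ j, z i j ≠ 0 := fun i => by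
    by_contra h3
    push Not at h3
    have h4 := (hz' i a).symm.trans (h3 a)
    have h5 := (hz' i b).symm.trans (h3 b)
    exact hw (show u a * v b - u b * v a = 0 by linear_combination v b * h4 - v a * h5)
  have h3 : ∀ i, (mxf ℂ (z i)).val V = max (V.v (z i a)) (V.v (z i b)) := fun i => by
    refine le_antisymm ?_ (max_le (v_le_mxf (z i) a V) (v_le_mxf (z i) b V))
    obtain ⟨j, hj⟩ := exists_val_mxf (k := ℂ) (h2 i) V
    rw [← hj, h1]
    refine (V.v.map_add _ _).trans (max_le_max ?_ ?_) <;> rw [map_mul]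
    · exact mul_le_of_le_one_right' (RZ.le_one_iff.2 (he' j))
    · exact mul_le_of_le_one_right' (RZ.le_one_iff.2 (hf' j))
  have h4 : ∀ l m : ℂ, V.v (aeval (l • e + m • f) Γ) * V.v (wd u v (a, b)) ^ 4 =
      V.v c * ∏ i, V.v (l • z i b - m • z i a) := fun l m => by
    have h5 := H ((algebraMap ℂ K l * v b - algebraMap ℂ K m * v a) / wd u v (a, b))
      ((algebraMap ℂ K m * u a - algebraMap ℂ K l * u b) / wd u v (a, b))
    have h6 : ((algebraMap ℂ K l * v b - algebraMap ℂ K m * v a) / wd u v (a, b)) • u +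
        ((algebraMap ℂ K m * u a - algebraMap ℂ K l * u b) / wd u v (a, b)) • v =
        l • e + m • f := funext fun j => by
      rw [Pi.add_apply, Pi.add_apply, Pi.smul_apply, Pi.smul_apply, Pi.smul_apply, Pi.smul_apply,
        Algebra.smul_def l, Algebra.smul_def m, he, hf]
      exact alg2 _ _ _
    rw [h6] at h5
    rw [h5, map_mul, map_prod, mul_assoc, show V.v (wd u v (a, b)) ^ 4 = ∏ _i : I, V.v (wd u v (a, b))
      by rw [Finset.prod_const, Finset.card_univ, hI], ← Finset.prod_mul_distrib]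
    refine congrArg _ (Finset.prod_congr rfl fun i _ => ?_)
    rw [← map_mul, alg3 hw, Valuation.map_neg, hz', hz', Algebra.smul_def, Algebra.smul_def]
  have h5 : ∀ (l m : ℂ) i, V.v (l • z i b - m • z i a) ≤ max (V.v (z i a)) (V.v (z i b)) :=
    fun l m i => (V.v.map_sub _ _).trans
      ((max_le_max (V.v_smul_le _ _) (V.v_smul_le _ _)).trans_eq (max_comm _ _))
  rw [val_add, val_sum, val_pr hc, val_nsmul, ← hab, mul_comm]
  simp only [hz, h3]
  refine le_antisymm ?_ ?_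
  · obtain ⟨μ, hμ⟩ := exists_gen V (fun i => z i a) fun i => z i b
    have h6 := h4 1 μ
    simp only [one_smul] at h6
    refine (mul_le_mul_right (Finset.prod_le_prod' fun i _ => hμ i) _).trans (h6.ge.trans ?_)
    exact mul_le_of_le_one_left' (aeval_mem fun j => add_mem (he' j) (smul_mem _ (hf' j)))
  · obtain ⟨l, m, h6⟩ := exists_unit h V he' hf' (a := a) (b := b)
      (by rw [he, he, hf, hf]; exact alg4 hw)
    have h7 := h4 l m
    rw [h6, one_mul] at h7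
    exact h7.le.trans (mul_le_mul_right (Finset.prod_le_prod' fun i _ => h5 l m i) _)

end Crest.Agent.X262.Bv3
end
end

-- ▼ part X262/Bv3/Fld
section

/-!
# Row 262, G4 / BV (helper3), part 2: the line with affine Plücker coordinates `x`

* `uu x`, `vv x`, `p5 x`, `OnL y x s` : the frame, the Plücker point, the point with parameter `s`;
* `grass`      : the Grassmannian as a hypersurface;
* `inj_of_gen` : two fields which generate a field of the sum of the dimensions are independent.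
-/

set_option autoImplicit false
set_option linter.unusedSectionVars false

open MvPolynomial

noncomputable section

namespace Crest.Agent.X262.Bv3

open Crest.Agent.X277 Crest.Agent.X277.Lef Crest.Agent.X277.BD Crest.Agent.X277.BD.Cyc
open Crest.Agent.X262.St91 Crest.Agent.X262.Geo Crest.Agent.X262.Lin62
open Crest.Agent.X262.Top (Hyp)
open Crest.Agent.X262.Brg.Hyp0 Crest.Agent.X262.Brg.Cubic
open IntermediateField (adjoin)
open Set (range)

attribute [local irreducible] mxf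

variable {Γ : MvPolynomial (Fin 4) ℂ} {K L : Type} [Field K] [Field L]

/-- the first vector of the frame -/
def uu (x : Fin 4 → K) : Fin 4 → K := ![1, 0, -x 2, -x 3]

/-- the second vector of the frame -/
def vv (x : Fin 4 → K) : Fin 4 → K := ![0, 1, x 0, x 1]

/-- the affine Plücker point -/
def p5 {K : Type} [CommRing K] (x : Fin 4 → K) : Fin 5 → K :=
  ![x 0, x 1, x 2, x 3, x 0 * x 3 - x 1 * x 2]

/-- `y` is the point of the line `x` with parameter `s` -/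
def OnL (y x : Fin 4 → K) (s : K) : Prop := ∀ j, y j = y 0 * (uu x + s • vv x) j

theorem map_uu (ρ : K →+* L) (x : Fin 4 → K) (j : Fin 4) :
    ρ (uu x j) = uu (fun i => ρ (x i)) j := by fin_cases j <;> simp [uu]

theorem map_vv (ρ : K →+* L) (x : Fin 4 → K) (j : Fin 4) :
    ρ (vv x j) = vv (fun i => ρ (x i)) j := by fin_cases j <;> simp [vv]

theorem map_p5 (ρ : K →+* L) (x : Fin 4 → K) (j : Fin 5) :
    ρ (p5 x j) = p5 (fun i => ρ (x i)) j := by fin_cases j <;> simp [p5]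

theorem OnL.map {y x : Fin 4 → K} {s : K} (h : OnL y x s) (ρ : K →+* L) :
    OnL (fun j => ρ (y j)) (fun j => ρ (x j)) (ρ s) := fun j => by
  have h1 := congrArg ρ (h j)
  simpa only [map_mul, Pi.add_apply, Pi.smul_apply, smul_eq_mul, map_add, map_uu, map_vv] using h1

theorem OnL.div {y x : Fin 4 → K} {s : K} (h : OnL y x s) (h0 : y 0 ≠ 0) :
    y 1 / y 0 = s ∧ y 2 / y 0 = -x 2 + s * x 0 ∧ y 3 / y 0 = -x 3 + s * x 1 := by
  refine ⟨?_, ?_, ?_⟩ <;> rw [div_eq_iff h0, mul_comm]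
  · simpa [uu, vv] using h 1
  · simpa [uu, vv] using h 2
  · simpa [uu, vv] using h 3

theorem wd_eq (x : Fin 4 → K) (i j : Fin 4) : wd (uu x) (vv x) (i, j) =
    !![0, 1, x 0, x 1; -1, 0, x 2, x 3; -x 0, -x 2, 0, x 0 * x 3 - x 1 * x 2;
      -x 1, -x 3, -(x 0 * x 3 - x 1 * x 2), 0] i j := by
  fin_cases i <;> fin_cases j <;> simp [wd, uu, vv] <;> ring

theorem not_par (x : Fin 4 → K) : ¬ Par (uu x) (vv x) := fun h => by simpa [uu, vv] using h 0 1

section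

variable {k : Type} [Field k] [Algebra k K]

theorem mxf_mul {ι : Type} [Fintype ι] {s : ι → K} (h0 : ∃ i, s i ≠ 0) {δ : K} (hδ : δ ≠ 0) :
    mxf k (fun i => δ * s i) = mxf k s + pr k δ := by
  refine (eq_mxf (fun i => ?_) fun V => ?_).symm
  · rw [mem_Sec_add_pr hδ, mul_div_cancel_left₀ _ hδ]
    exact mem_Sec_mxf s i
  · obtain ⟨i, hi⟩ := exists_val_mxf (k := k) h0 V
    exact ⟨i, by rw [map_mul, hi, val_add, val_pr hδ, mul_comm]⟩

theorem OnL.mxf_eq {y x : Fin 4 → K} {s : K} (h : OnL y x s) (h0 : y 0 ≠ 0) :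
    mxf k y = mxf k (uu x + s • vv x) + pr k (y 0) := by
  rw [← mxf_mul ⟨0, by simp [uu, vv]⟩ h0]
  exact congrArg _ (funext h)

theorem mxf_wd (x : Fin 4 → K) : mxf k (wd (uu x) (vv x)) = mx1 k (p5 x) := by
  refine le_antisymm (mxf_le ⟨(0, 1), by simp [wd_eq]⟩ fun ⟨i, j⟩ => ?_)
    (mxf_le ⟨0, by simp⟩ fun i => ?_)
  · have h := nonneg_iff.1 (mx1_nonneg (k := k) (p5 x))
    have h0 : x 0 ∈ _ := mem_mx1 (k := k) (p5 x) 0
    have h1 : x 1 ∈ _ := mem_mx1 (k := k) (p5 x) 1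
    have h2 : x 2 ∈ _ := mem_mx1 (k := k) (p5 x) 2
    have h3 : x 3 ∈ _ := mem_mx1 (k := k) (p5 x) 3
    have h4 : x 0 * x 3 - x 1 * x 2 ∈ _ := mem_mx1 (k := k) (p5 x) 4
    rw [wd_eq]
    fin_cases i <;> fin_cases j <;>
      first | exact zero_mem _ | assumption | exact neg_mem (by assumption)
  · have h := fun i j => wd_eq x i j ▸ mem_Sec_mxf (k := k) (wd (uu x) (vv x)) (i, j)
    fin_cases i
    exacts [h 0 1, h 0 2, h 0 3, h 1 2, h 1 3, h 2 3]

theorem dim_of_ind [CharZero k] {n : ℕ} {t : Fin n → K} (hi : AlgebraicIndependent k t)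
    (ht : adjoin k (range t) = ⊤) : dim k K = n := by
  have := eft_of_top ht
  have h := (isTranscendenceBasis_iff_algebraicIndependent_isAlgebraic.2
    ⟨hi, alg_of_top ht⟩).cardinalMk_eq_trdeg
  rw [trdeg_eq_dim, Cardinal.mk_fin] at h
  exact_mod_cast h.symm

end

variable [Algebra ℂ K] [Algebra ℂ L]

theorem OnL.root (hΓ : Γ.IsHomogeneous 4) {y x : Fin 4 → K} {s : K} (h : OnL y x s) (h0 : y 0 ≠ 0)
    (h1 : aeval y Γ = 0) : aeval (uu x + s • vv x) Γ = 0 := by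
  rw [show y = y 0 • (uu x + s • vv x) from funext h, aeval_smul hΓ] at h1
  exact (mul_eq_zero.1 h1).resolve_left (pow_ne_zero _ h0)

theorem map_aeval_vv (ρ : K →ₐ[ℂ] L) (x : Fin 4 → K) :
    ρ (aeval (vv x) Γ) = aeval (vv fun i => ρ (x i)) Γ := by
  rw [← AlgHom.comp_apply, comp_aeval]
  exact congrArg (fun z => aeval z Γ) (funext (map_vv (ρ : K →+* L) x))

theorem aeval_vv_ne (hΓ : Γ.IsHomogeneous 4) (h : NoL Γ) {x : Fin 4 → K}
    (hx : AlgebraicIndependent ℂ x) : aeval (vv x) Γ ≠ 0 := fun h0 => by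
  have h1 : aeval (![0, 1, X 0, X 1] : Fin 4 → MvPolynomial (Fin 4) ℂ) Γ = 0 := hx (by
    rw [← AlgHom.comp_apply, comp_aeval, map_zero, ← h0]
    congr 2
    funext j
    fin_cases j <;> simp [vv])
  have h2 : lnP Γ (![0, 1, 0, 0] : Fin 4 → ℂ) ![0, 0, 0, 1] = 0 := Polynomial.funext fun t => by
    have h3 := congrArg (aeval (![0, t, 0, 0] : Fin 4 → ℂ)) h1
    rw [← AlgHom.comp_apply, comp_aeval, map_zero] at h3
    rw [eval_lnP, Polynomial.eval_zero]
    refine Eq.trans (congrArg (fun z => aeval z Γ) (funext fun j => ?_)) h3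
    fin_cases j <;> simp
  exact lnP_ne h hΓ (fun h4 => by simpa using h4 1 3) h2

theorem plq_hom : plq.IsHomogeneous 2 :=
  (((isHomogeneous_X ℂ 0).mul (isHomogeneous_X ℂ 5)).sub
    ((isHomogeneous_X ℂ 1).mul (isHomogeneous_X ℂ 4))).add
    ((isHomogeneous_X ℂ 2).mul (isHomogeneous_X ℂ 3))

theorem plq_sm : Sm plq := fun p hp _ => by
  by_contra h
  push Not at h
  have h0 := h 0
  have h1 := h 1
  have h2 := h 2
  have h3 := h 3
  have h4 := h 4
  have h5 := h 5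
  simp [plq, pderiv_X] at h0 h1 h2 h3 h4 h5
  exact hp (funext fun i => by fin_cases i <;> assumption)

theorem deh_plq : deh plq = X 4 - (X 0 * X 3 - X 1 * X 2) := by
  have h : ∀ i : Fin 5, deh (X i.succ : MvPolynomial (Fin 6) ℂ) = X i := fun i => by simp [deh]
  have h0 : deh (X 0 : MvPolynomial (Fin 6) ℂ) = 1 := by simp [deh]
  rw [plq, map_add, map_sub, map_mul, map_mul, map_mul, h0]
  rw [show (5 : Fin 6) = (4 : Fin 5).succ from rfl, show (4 : Fin 6) = (3 : Fin 5).succ from rfl,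
    show (3 : Fin 6) = (2 : Fin 5).succ from rfl, show (2 : Fin 6) = (1 : Fin 5).succ from rfl,
    show (1 : Fin 6) = (0 : Fin 5).succ from rfl, h, h, h, h, h]
  ring

theorem gp_plq {x : Fin 4 → K} (hx : AlgebraicIndependent ℂ x) :
    GP plq (Fin.cons 1 (p5 x) : Fin 6 → K) := by
  refine gp_of_ker (by norm_num) le_rfl plq_hom plq_sm fun q => ?_
  rw [deh_plq]
  refine ⟨fun h => ?_, ?_⟩
  · have h1 : aeval (p5 (X : Fin 4 → MvPolynomial (Fin 4) ℂ)) q = 0 := hx (by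
      rw [← AlgHom.comp_apply, comp_aeval, map_zero, ← h]
      congr 2
      funext j
      fin_cases j <;> simp [p5])
    let π := Ideal.Quotient.mkₐ ℂ
      (Ideal.span {(X 4 - (X 0 * X 3 - X 1 * X 2) : MvPolynomial (Fin 5) ℂ)})
    have h2 : (aeval fun i : Fin 4 => π (X i.castSucc)).comp (aeval (p5 X)) = π := by
      ext1 j
      have h3 : π (X 0 * X 3 - X 1 * X 2) = π (X 4) :=
        (Ideal.Quotient.eq.2 (Ideal.mem_span_singleton_self _)).symm
      fin_cases j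
      all_goals simp only [AlgHom.comp_apply, aeval_X]
      exacts [aeval_X _ _, aeval_X _ _, aeval_X _ _, aeval_X _ _, by simpa [p5] using h3]
    have h4 := DFunLike.congr_fun h2 q
    rw [AlgHom.comp_apply, h1, map_zero] at h4
    exact Ideal.mem_span_singleton.1 (Ideal.Quotient.eq_zero_iff_mem.1 h4.symm)
  · rintro ⟨r, rfl⟩
    simp [p5]

/-- the Grassmannian -/
def grass {x : Fin 4 → K} (hi : AlgebraicIndependent ℂ x) (hx : adjoin ℂ (range x) = ⊤) :
    Hyp 5 plq K :=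
  Brg.Main.hypOf plq_hom le_rfl plq_sm (x := p5 x)
    (top_unique (hx ▸ IntermediateField.adjoin.mono _ _ _ (by
      rintro _ ⟨j, rfl⟩
      exact ⟨j.castSucc, by fin_cases j <;> rfl⟩))) (gp_plq hi)


theorem mem_of_top {k : Type} [Field k] [Algebra k K] [Algebra k L] {T : Set K}
    (h : adjoin k T = ⊤) (α : K →ₐ[k] L) {D : IntermediateField k L} (h1 : ∀ t ∈ T, α t ∈ D)
    (z : K) : α z ∈ D :=
  IntermediateField.adjoin_le_iff (T := D.comap α).2 h1 (h ▸ IntermediateField.mem_top)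

theorem ext_of_top {k : Type} [Field k] [Algebra k K] [Algebra k L] {T : Set K}
    (h : adjoin k T = ⊤) {α β : K →ₐ[k] L} (h1 : ∀ t ∈ T, α t = β t) : α = β :=
  AlgHom.ext fun z => by
    have h2 : z ∈ adjoin k T := h ▸ IntermediateField.mem_top
    induction h2 using IntermediateField.adjoin_induction with
    | mem t ht => exact h1 t ht
    | algebraMap c => rw [α.commutes, β.commutes]
    | add a b _ _ ha hb => rw [map_add, map_add, ha, hb]
    | inv a _ ha => rw [map_inv₀, map_inv₀, ha]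
    | mul a b _ _ ha hb => rw [map_mul, map_mul, ha, hb]

theorem adjoin_y {N : ℕ} {G : MvPolynomial (Fin (N + 1)) ℂ} (S : Hyp N G K) :
    adjoin ℂ (range fun j => S.y j / S.y 0) = ⊤ := eq_top_iff.2 fun f _ => by
  obtain ⟨a, ha, c, hc, -, rfl⟩ := S.frac f
  exact div_mem (IntermediateField.algebra_adjoin_le_adjoin _ _ ha)
    (IntermediateField.algebra_adjoin_le_adjoin _ _ hc)

theorem alg_of_mem [Algebra K L] [Algebra.IsAlgebraic K L] {D : IntermediateField ℂ L}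
    (h : ∀ z, algebraMap K L z ∈ D) : Algebra.IsAlgebraic D L := ⟨fun z =>
  (Algebra.IsAlgebraic.isAlgebraic (R := K) z).ringHom_of_comp_eq
    ((algebraMap K L).codRestrict D h) (RingHom.id L) (RingHom.injective _) rfl⟩

theorem inj_of_gen {A B : Type} [Field A] [Field B] [Algebra ℂ A] [Algebra ℂ B]
    [Algebra.EssFiniteType ℂ A] [Algebra.EssFiniteType ℂ B] [Algebra.EssFiniteType ℂ L]
    (a : A →ₐ[ℂ] L) (b : B →ₐ[ℂ] L) (hd : dim ℂ L = dim ℂ A + dim ℂ B)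
    (H : ∀ D : IntermediateField ℂ L, (∀ z, a z ∈ D) → (∀ z, b z ∈ D) → Algebra.IsAlgebraic D L) :
    Function.Injective (Algebra.TensorProduct.productMap a b) := by
  obtain ⟨s, hs⟩ := Wd.exists_tb ℂ A
  obtain ⟨t, ht⟩ := Wd.exists_tb ℂ B
  refine Wd.inj_of_algInd hs.isAlgebraic ht.isAlgebraic ?_
  let K0 := adjoin ℂ (range (Sum.elim (a ∘ s) (b ∘ t)))
  have h1 : Algebra.IsAlgebraic (algebraicClosure K0 L) L :=
    H ((algebraicClosure K0 L).restrictScalars ℂ)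
      (fun z => mem_algebraicClosure_iff.2 (Wd.isAlg_map a a.injective (R := K0.toSubalgebra)
        (by rintro _ ⟨_, ⟨i, rfl⟩, rfl⟩; exact IntermediateField.subset_adjoin _ _ ⟨.inl i, rfl⟩)
        (hs.isAlgebraic.1 z)))
      fun z => mem_algebraicClosure_iff.2 (Wd.isAlg_map b b.injective (R := K0.toSubalgebra)
        (by rintro _ ⟨_, ⟨i, rfl⟩, rfl⟩; exact IntermediateField.subset_adjoin _ _ ⟨.inr i, rfl⟩)
        (ht.isAlgebraic.1 z))
  have h2 := IntermediateField.isAlgebraic_adjoin_iff_top.1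
    (Algebra.IsAlgebraic.trans K0 (algebraicClosure K0 L) L)
  refine (Algebra.IsAlgebraic.isTranscendenceBasis_of_le_trdeg_of_finite ℂ _ ?_).1
  rw [trdeg_eq_dim, hd]
  simp

end Crest.Agent.X262.Bv3
end
end

-- ▼ part X262/Bv3/Deg
section

/-!
# Row 262, G4 / BV (helper3), part 3: the norm from the incidence variety

`E = ℂ(x)` is the field of the Grassmannian, `F' = E(s)` the field of the pairs (line, point).

* `deg_test` : `[F' : E] = 4`, and the degree of the norm of a class `c` is `c . h`;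
* `nm_oP`    : the norm of the hyperplane class; `nm_lin` : the norm of a class of the quartic.
-/

set_option autoImplicit false
set_option linter.unusedSectionVars false

open MvPolynomial

noncomputable section

namespace Crest.Agent.X262.Bv3

open Crest.Agent.X277 Crest.Agent.X277.Lef Crest.Agent.X277.BD Crest.Agent.X277.BD.Cyc
open Crest.Agent.X262.St91 Crest.Agent.X262.Geo Crest.Agent.X262.Lin62 Crest.Agent.X262.Gal71
open Crest.Agent.X277.BD.Br (On oP At)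
open Crest.Agent.X262.Top (Hyp)
open Crest.Agent.X262.Brg.Hyp0 Crest.Agent.R274.Prod1_134
open IntermediateField (adjoin)
open Set (range)
open Module (finrank)

attribute [local irreducible] mxf

variable {Γ : MvPolynomial (Fin 4) ℂ}

theorem pb_up {M A B : Type} [Field M] [Field A] [Field B] [Algebra ℂ M] [Algebra ℂ A] [Algebra ℂ B]
    [Algebra M A] [Algebra M B] [IsScalarTower ℂ M A] [IsScalarTower ℂ M B] (α : A →ₐ[M] B)
    (β : A →ₐ[ℂ] B) (h : ∀ z, α z = β z) (a : BD ℂ A) : pb α (up M a) = up M (pb β a) :=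
  (mp_mp (j'' := (β : A →+* B)) (h'' := fun c => ⟨algebraMap ℂ M c, by
    rw [RingHom.coe_coe, β.commutes, IsScalarTower.algebraMap_apply ℂ M B]⟩) h a).trans
    (mp_mp (fun _ => rfl) a).symm

/-- projection from a point outside the quartic -/
theorem mxf_proj (hΓ : Γ.IsHomogeneous 4) {M K : Type} [Field M] [Field K] [Algebra ℂ M]
    [Algebra ℂ K] [Algebra M K] [IsScalarTower ℂ M K] {x : Fin 4 → K} {s : K} {m : Fin 2 → M}
    (h0 : algebraMap M K (m 0) = x 0) (h1 : algebraMap M K (m 1) = x 1) {c : M} (hc : c ≠ 0)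
    (h2 : aeval (vv x) Γ = algebraMap M K c) (h3 : aeval (uu x + s • vv x) Γ = 0) :
    mxf M (uu x + s • vv x) = mx1 M ![x 2, x 3] := by
  have e0 : (uu x + s • vv x) 0 = 1 := by simp [uu, vv]
  have e1 : (uu x + s • vv x) 1 = s := by simp [uu, vv]
  have e2 : (uu x + s • vv x) 2 = -x 2 + m 0 • s := by
    simp [uu, vv, Algebra.smul_def, h0, mul_comm]
  have e3 : (uu x + s • vv x) 3 = -x 3 + m 1 • s := by
    simp [uu, vv, Algebra.smul_def, h1, mul_comm]
  refine le_antisymm (mxf_le ⟨0, by simp [e0]⟩ fun i => ?_) (mxf_le ⟨0, by simp⟩ fun i => ?_)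
  · have g0 := nonneg_iff.1 (mx1_nonneg (k := M) ![x 2, x 3])
    have g2 : x 2 ∈ _ := mem_mx1 (k := M) ![x 2, x 3] 0
    have g3 : x 3 ∈ _ := mem_mx1 (k := M) ![x 2, x 3] 1
    have g1 : s ∈ (mx1 M ![x 2, x 3]).Sec := fun W => not_lt.1 fun hlt => by
      have hs : s ≠ 0 := RZ.ne_zero_iff.1 ((val_pos _ W).trans hlt).ne'
      have hu : ∀ j, W.v (uu x j) < W.v s := fun j => by
        refine lt_of_le_of_lt ?_ hlt
        fin_cases j
        exacts [g0 W, zero_mem (mx1 M ![x 2, x 3]).Sec W, neg_mem g2 W, neg_mem g3 W]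
      have h4 := v_aeval_eq (Γ := Γ) (V := W.dn ℂ) (z := vv x) (z' := s⁻¹ • (uu x + s • vv x))
        (fun j => by
          fin_cases j
          exacts [zero_mem _, one_mem _, (h0 ▸ W.2 _ : x 0 ∈ W.1), (h1 ▸ W.2 _ : x 1 ∈ W.1)])
        (fun j => by
          rw [smul_add, smul_smul, inv_mul_cancel₀ hs, one_smul, Pi.add_apply, add_sub_cancel_right,
            Pi.smul_apply, smul_eq_mul, map_mul, map_inv₀]
          exact (inv_mul_lt_one₀ (RZ.pos (V := W) hs)).2 (hu j))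
        (h2 ▸ W.v_alg hc)
      rw [aeval_smul hΓ, h3, mul_zero, map_zero] at h4
      exact zero_ne_one h4
    have g4 := add_mem (neg_mem g2) (Submodule.smul_mem _ (m 0) g1)
    have g5 := add_mem (neg_mem g3) (Submodule.smul_mem _ (m 1) g1)
    rw [← e0] at g0
    rw [← e2] at g4
    rw [← e3] at g5
    nth_rewrite 1 [← e1] at g1
    fin_cases i
    exacts [g0, g1, g4, g5]
  · have g := mem_Sec_mxf (k := M) (uu x + s • vv x)
    have g0 := g 0
    have g1 := g 1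
    have g2 := g 2
    have g3 := g 3
    rw [e0] at g0
    rw [e1] at g1
    rw [e2] at g2
    rw [e3] at g3
    have g4 := sub_mem (Submodule.smul_mem _ (m 0) g1) g2
    have g5 := sub_mem (Submodule.smul_mem _ (m 1) g1) g3
    rw [sub_add_cancel_right, neg_neg] at g4 g5
    fin_cases i
    exacts [g0, g4, g5]

theorem On_of_add {K : Type} [Field K] [Algebra ℂ K] {P : PModel ℂ K} {a b : BD ℂ K} (ha : Free a)
    (hb : Free b) (h : a + b ∈ On P) : a ∈ On P := by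
  obtain ⟨N, hN⟩ := Br.serre (neg_mem h)
  have h1 := (hN N le_rfl).add hb
  rw [show -(a + b) + N • oP P + b = N • oP P - a by abel] at h1
  exact car_iff_On.1 (Mod.car_of_free Br.free_oP ha h1)

variable {F E F' Ω : Type} [Field F] [Field E] [Field F'] [Field Ω] [Algebra ℂ F] [Algebra ℂ E]
  [Algebra ℂ F'] [Algebra ℂ Ω] [Algebra E F'] [Algebra E Ω] [IsScalarTower ℂ E F']
  [IsScalarTower ℂ E Ω] [Algebra.EssFiniteType ℂ F] [FiniteDimensional E Ω] [IsGalois E Ω]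
  [Fintype (F' →ₐ[E] Ω)] {S : Hyp 3 Γ F} {x : Fin 4 → E} {ι : F →ₐ[ℂ] F'} {s : F'}

theorem root_of (hΓ : Γ.IsHomogeneous 4) {K : Type} [Field K] [Algebra ℂ K] {α : F →ₐ[ℂ] K}
    {x : Fin 4 → K} {s : K} (hy : OnL (fun j => α (S.y j)) x s) :
    aeval (uu x + s • vv x) Γ = 0 :=
  hy.root hΓ ((map_ne_zero α).2 (S.y_ne 0)) (by
    rw [← comp_aeval, AlgHom.comp_apply, (S.ker 4 Γ hΓ).2 dvd_rfl, map_zero])

theorem deg_test (hΓ : Γ.IsHomogeneous 4) (hN : NoL Γ) (hd : dim ℂ F = 2)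
    (h4 : bnum [oP S.P, oP S.P] = 4) (hi : AlgebraicIndependent ℂ x)
    (hx : adjoin ℂ (range x) = ⊤) (hs : adjoin E {s} = ⊤)
    (hy : OnL (fun j => ι (S.y j)) (fun j => algebraMap E F' (x j)) s) (p₀ : F' →ₐ[E] Ω) :
    finrank E F' = 4 ∧ ∀ (c : BD ℂ F) (d : ℤ), Lin (nm E Ω (pb ι c)) (d • mx1 ℂ (p5 x)) →
      d = bnum [c, oP S.P] := by
  have := finite_of_sh p₀
  have := eft_of_top hx
  have : CharZero E := charZero_of_injective_algebraMap (algebraMap ℂ E).injective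
  have : Algebra.EssFiniteType ℂ F' := .comp ℂ E F'
  have : Algebra.EssFiniteType ℂ Ω := .comp ℂ E Ω
  let M := adjoin ℂ (range ![x 0, x 1])
  let m : Fin 2 → M := fun i => ⟨![x 0, x 1] i, IntermediateField.subset_adjoin _ _ ⟨i, rfl⟩⟩
  have : Algebra.EssFiniteType M F' := .of_comp ℂ M F'
  have : Algebra.EssFiniteType M Ω := .of_comp ℂ M Ω
  have hM : dim ℂ M = 2 := dim_of_ind (t := m) (AlgebraicIndependent.of_comp M.val (by
    rw [show M.val ∘ m = x ∘ (![0, 1] : Fin 2 → Fin 4) from funext fun i => by fin_cases i <;> rfl]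
    exact hi.comp _ (by decide))) (adjoin_sub _)
  have hF' : dim ℂ F' = dim ℂ F + dim ℂ M := by
    rw [Loc.dim_tower ℂ E F', dim_of_ind hi hx, Loc.dim_eq_zero_iff.2 inferInstance, hd, hM]
  obtain ⟨e1, e2, e3⟩ := hy.div ((map_ne_zero ι).2 (S.y_ne 0))
  have hD : ∀ D : IntermediateField ℂ F', (∀ z, ι z ∈ D) → (∀ z, inc ℂ M F' z ∈ D) → D = ⊤ := by
    intro D h1 h2
    have h3 : s ∈ D := e1 ▸ div_mem (h1 _) (h1 _)
    have h5 : ∀ z, inc ℂ E F' z ∈ D := mem_of_top hx _ (by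
      rintro _ ⟨j, rfl⟩
      fin_cases j
      · exact h2 (m 0)
      · exact h2 (m 1)
      · have h6 := sub_mem (mul_mem h3 (show algebraMap E F' (x 0) ∈ D from h2 (m 0)))
          (e2 ▸ div_mem (h1 (S.y 2)) (h1 (S.y 0)))
        rwa [sub_add_cancel_right, neg_neg] at h6
      · have h6 := sub_mem (mul_mem h3 (show algebraMap E F' (x 1) ∈ D from h2 (m 1)))
          (e3 ▸ div_mem (h1 (S.y 3)) (h1 (S.y 0)))
        rwa [sub_add_cancel_right, neg_neg] at h6)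
    exact eq_top_iff.2 fun z _ => mem_of_top hs (AlgHom.id E F')
      (D := D.toSubfield.toIntermediateField h5) (by rintro _ rfl; exact h3) z
  have hPF : IsPF ι (inc ℂ M F') := Wd.isPF_of_adjoin
    (inj_of_gen _ _ hF' fun D h1 h2 => by rw [hD D h1 h2]; infer_instance)
    (hD _ (fun z => IntermediateField.subset_adjoin _ _ (.inl ⟨z, rfl⟩))
      fun z => IntermediateField.subset_adjoin _ _ (.inr ⟨z, rfl⟩))
  have hld : ∀ a b : BD ℂ F, bnum [up M (pb ι a), up M (pb ι b)] = bnum [a, b] := fun a b => by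
    rw [← Loc.bnum_ld (GF.pfCv_ld hPF fun _ => rfl) [a, b]]
    congr 2
    · exact mp_mp (fun _ => rfl) a
    · exact congrArg (· :: []) (mp_mp (fun _ => rfl) b)
  have hg : up M (mx1 ℂ (p5 x)) = mx1 M ![x 2, x 3] := by
    rw [mx1, up_mxf]
    refine le_antisymm (mxf_le ⟨0, by simp⟩ fun i => ?_) (mxf_le ⟨0, by simp⟩ fun i => ?_)
    · have g0 := nonneg_iff.1 (mx1_nonneg (k := M) ![x 2, x 3])
      have g2 : x 2 ∈ _ := mem_mx1 (k := M) ![x 2, x 3] 0
      have g3 : x 3 ∈ _ := mem_mx1 (k := M) ![x 2, x 3] 1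
      have g4 : x 0 * 1 ∈ _ := Submodule.smul_mem _ (m 0) g0
      have g5 : x 1 * 1 ∈ _ := Submodule.smul_mem _ (m 1) g0
      rw [mul_one] at g4 g5
      fin_cases i
      exacts [g0, g4, g5, g2, g3,
        sub_mem (Submodule.smul_mem _ (m 0) g3) (Submodule.smul_mem _ (m 1) g2)]
    · have g := mem_Sec_mxf (k := M) (Fin.cons 1 (p5 x) : Fin 6 → E)
      fin_cases i
      exacts [g 0, g 3, g 4]
  have hc : Lin (up M (pb ι (oP S.P))) (pb (inc M E F') (mx1 M ![x 2, x 3])) := by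
    let c : M := aeval (vv ![m 0, m 1, 0, 0]) Γ
    have h1 : algebraMap M E c = aeval (vv x) Γ := map_aeval_vv M.val _
    refine ⟨ι (S.y 0), (map_ne_zero ι).2 (S.y_ne 0), ?_⟩
    rw [Br.pb_oP, up_mxf, hy.mxf_eq ((map_ne_zero ι).2 (S.y_ne 0)), mxf_proj hΓ (m := m)
      (x := fun j => algebraMap E F' (x j)) rfl rfl
      (c := c) (fun h0 => aeval_vv_ne hΓ hN hi (by rw [← h1, h0, map_zero]))
      (map_aeval_vv (inc ℂ M F') ![m 0, m 1, 0, 0]).symm (root_of hΓ hy), pb_mx1]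
    congr 2
    funext i
    fin_cases i <;> rfl
  have h6 : bnum [mx1 M ![x 2, x 3], mx1 M ![x 2, x 3]] ≤ 1 := pn 2 (eq_top_iff.2 fun z _ =>
    mem_of_top hx (AlgHom.id ℂ E) (D := (adjoin M (range ![x 2, x 3])).restrictScalars ℂ) (by
      rintro _ ⟨j, rfl⟩
      fin_cases j
      exacts [IntermediateField.algebraMap_mem _ (m 0), IntermediateField.algebraMap_mem _ (m 1),
        IntermediateField.subset_adjoin M _ ⟨0, rfl⟩, IntermediateField.subset_adjoin M _ ⟨1, rfl⟩]) z)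
  have h7 := bnum_pb (inc M E F') [mx1 M ![x 2, x 3], mx1 M ![x 2, x 3]]
  rw [List.map_cons, List.map_singleton, ← hc.bnum_eq, bnum_swap, ← hc.bnum_eq, hld, h4,
    deg_tower] at h7
  have h8 : bnum [mx1 M ![x 2, x 3], mx1 M ![x 2, x 3]] = 1 := by
    refine le_antisymm h6 (not_lt.1 fun h => ?_)
    have := mul_nonpos_of_nonneg_of_nonpos (Nat.cast_nonneg (α := ℤ) (finrank E F'))
      (Int.lt_add_one_iff.1 (show _ < (0 : ℤ) + 1 from h))
    omega
  rw [h8, mul_one] at h7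
  refine ⟨by exact_mod_cast h7.symm, fun c d h => ?_⟩
  have h9 : up M (nm E Ω (pb ι c)) = nm E Ω (up M (pb ι c)) := pb_injective (inc M E Ω) (by
    rw [pb_up (inc M E Ω) (inc ℂ E Ω) fun _ => rfl, pb_nm, pb_nm, map_sum]
    exact Finset.sum_congr rfl fun p _ => (pb_up (sh M p) (sh ℂ p) (fun _ => rfl) _).symm)
  have h10 := (h.up M).bnum_eq [mx1 M ![x 2, x 3]]
  rw [h9, bnum_nm p₀, map_zsmul, hg, bnum_zsmul, h8, mul_one, List.map_singleton, bnum_swap,
    ← hc.bnum_eq, bnum_swap, hld] at h10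
  exact h10.symm

omit [FiniteDimensional E Ω] [IsGalois E Ω] [Fintype (F' →ₐ[E] Ω)] in
theorem sh_inj (hs : adjoin E {s} = ⊤) : Function.Injective fun p : F' →ₐ[E] Ω => p s :=
  fun _ _ h => ext_of_top hs (by rintro _ rfl; exact h)

omit [FiniteDimensional E Ω] [IsGalois E Ω] [Fintype (F' →ₐ[E] Ω)] in
theorem onL_sh (hy : OnL (fun j => ι (S.y j)) (fun j => algebraMap E F' (x j)) s)
    (p : F' →ₐ[E] Ω) :
    OnL (fun j => ((sh ℂ p).comp ι) (S.y j)) (fun j => algebraMap E Ω (x j)) (p s) := by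
  simpa using hy.map (p : F' →+* Ω)

theorem nm_oP (hΓ : Γ.IsHomogeneous 4) (hN : NoL Γ) (hi : AlgebraicIndependent ℂ x)
    (hs : adjoin E {s} = ⊤) (hy : OnL (fun j => ι (S.y j)) (fun j => algebraMap E F' (x j)) s)
    (p₀ : F' →ₐ[E] Ω) (h4 : finrank E F' = 4) :
    Lin (nm E Ω (pb ι (oP S.P))) (4 • mx1 ℂ (p5 x)) := by
  have hI : Fintype.card (F' →ₐ[E] Ω) = 4 := by rw [← Nat.card_eq_fintype_card, card_sh p₀, h4]
  have hc := aeval_vv_ne hΓ hN hi
  have h1 := sum_mxf hN (u := uu fun j => algebraMap E Ω (x j))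
    (v := vv fun j => algebraMap E Ω (x j)) ⟨(0, 1), by simp [wd_eq]⟩ hI
    (c := inc ℂ E Ω (aeval (vv x) Γ)) ((map_ne_zero _).2 hc)
    (map_aeval_vv (inc ℂ E Ω) x ▸ eq_prod hΓ hI (sh_inj hs) fun p => root_of hΓ (onL_sh hy p))
  obtain ⟨n, hn⟩ := exists_prod (E := E) (Ω := Ω) (ι (S.y 0))
  have h0 : ∀ p : F' →ₐ[E] Ω, p (ι (S.y 0)) ≠ 0 := fun p =>
    (map_ne_zero p).2 ((map_ne_zero ι).2 (S.y_ne 0))
  have hn0 : n ≠ 0 := fun h => Finset.prod_ne_zero_iff.2 (fun p _ => h0 p)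
    (by rw [← hn, h, map_zero])
  refine ⟨n / aeval (vv x) Γ, div_ne_zero hn0 hc, pb_injective (inc ℂ E Ω) ?_⟩
  rw [pb_nm, pr_div hn0 hc, map_add, map_sub, map_nsmul, pb_mx1, pb_pr, pb_pr,
    show (fun i => inc ℂ E Ω (p5 x i)) = _ from funext (map_p5 (algebraMap E Ω) x), ← mxf_wd, ← h1,
    show inc ℂ E Ω n = _ from hn, pr_prod _ fun p _ => h0 p, add_add_sub_cancel,
    ← Finset.sum_add_distrib]
  refine Finset.sum_congr rfl fun p _ => ?_
  rw [pb_pb, Br.pb_oP]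
  exact (onL_sh hy p).mxf_eq (h0 p)

/-- **NORM** -/
theorem nm_lin (hP : PicStmt) (hΓ : Γ.IsHomogeneous 4) (hN : NoL Γ) (hd : dim ℂ F = 2)
    (h4 : bnum [oP S.P, oP S.P] = 4) (hi : AlgebraicIndependent ℂ x)
    (hx : adjoin ℂ (range x) = ⊤) (hs : adjoin E {s} = ⊤)
    (hy : OnL (fun j => ι (S.y j)) (fun j => algebraMap E F' (x j)) s) (p₀ : F' →ₐ[E] Ω)
    {c : BD ℂ F} (hc : c ∈ On S.P) :
    Lin (nm E Ω (pb ι c)) (bnum [c, oP S.P] • mx1 ℂ (p5 x)) := by
  obtain ⟨h1, h2⟩ := deg_test hΓ hN hd h4 hi hx hs hy p₀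
  have h3 : nm E Ω (pb ι (oP S.P)) ∈ On (grass hi hx).P :=
    (nm_oP hΓ hN hi hs hy p₀ h1).mem_On (nsmul_mem Br.oP_mem 4)
  obtain ⟨N, hN1⟩ := Br.serre hc
  obtain ⟨N', hN2⟩ := Br.serre (neg_mem hc)
  have h5 := On_of_add (P := (grass hi hx).P) (free_nm (E := E) (Ω := Ω) ((hN1 N le_rfl).pb ι))
    (free_nm (E := E) (Ω := Ω) ((hN2 N' le_rfl).pb ι)) (by
      rw [← map_add, ← map_add, show c + N • oP S.P + (-c + N' • oP S.P) = (N + N') • oP S.P by
        rw [add_nsmul]; abel, map_nsmul, map_nsmul]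
      exact nsmul_mem h3 _)
  rw [map_add, map_add, map_nsmul, map_nsmul] at h5
  obtain ⟨d, h6⟩ := hP E (grass hi hx) _ ((AddSubgroup.add_mem_cancel_right _ (nsmul_mem h3 N)).1 h5)
  exact h2 c d h6 ▸ h6

end Crest.Agent.X262.Bv3
end
end

-- ▼ part X262/Bv3/Main
section

/-!
# Row 262, G4 / BV (helper3), part 4: the Beauville involution

* `exists_lift` : two different points of the generic line form a generic point of `S × S`;
* `fix_le`      : the unordered residual pair is rational over the unordered pair;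
* `bv_of`       : `PicStmt → DegStmt → BvStmt`.
-/

set_option autoImplicit false
set_option linter.unusedSectionVars false

open MvPolynomial

noncomputable section

namespace Crest.Agent.X262.Bv3

open Crest.Agent.X277 Crest.Agent.X277.Lef Crest.Agent.X277.BD Crest.Agent.X277.BD.Cyc
open Crest.Agent.X262.St91 Crest.Agent.X262.Geo Crest.Agent.X262.Lin62 Crest.Agent.X262.Gal71
open Crest.Agent.X277.BD.Br (On oP At)
open Crest.Agent.X262.Top (Hyp)
open Crest.Agent.X262.Brg.Hyp0 Crest.Agent.R274.Prod1_134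
open IntermediateField (adjoin)
open Set (range)
open Module (finrank)

attribute [local irreducible] mxf

variable {Γ : MvPolynomial (Fin 4) ℂ}

section Two

variable {K : Type} [Field K] {y y' x x' : Fin 4 → K} {s s' : K}

theorem coord_of_two (h : OnL y x s) (h' : OnL y' x s') (h0 : y 0 ≠ 0) (h0' : y' 0 ≠ 0)
    (hs : s ≠ s') : x = ![(y 2 / y 0 - y' 2 / y' 0) / (s - s'), (y 3 / y 0 - y' 3 / y' 0) / (s - s'),
      (s' * (y 2 / y 0) - s * (y' 2 / y' 0)) / (s - s'),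
      (s' * (y 3 / y 0) - s * (y' 3 / y' 0)) / (s - s')] := by
  obtain ⟨-, e2, e3⟩ := h.div h0
  obtain ⟨-, f2, f3⟩ := h'.div h0'
  rw [e2, e3, f2, f3]
  funext j
  fin_cases j <;> exact eq_div_of_mul_eq (sub_ne_zero.2 hs) (by dsimp; ring)

theorem wd_onL (h : OnL y x s) (h' : OnL y' x s') (ij : Fin 4 × Fin 4) :
    wd y y' ij = y 0 * y' 0 * (s' - s) * wd (uu x) (vv x) ij := by
  rw [wd, wd, h ij.1, h ij.2, h' ij.1, h' ij.2]
  simp only [Pi.add_apply, Pi.smul_apply, smul_eq_mul]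
  ring

/-- the affine Plücker coordinates of the line through two points -/
def xw (y y' : Fin 4 → K) : Fin 4 → K := ![wd y y' (0, 2) / wd y y' (0, 1),
  wd y y' (0, 3) / wd y y' (0, 1), wd y y' (1, 2) / wd y y' (0, 1), wd y y' (1, 3) / wd y y' (0, 1)]

theorem onL_xw (h0 : y 0 ≠ 0) (hw : wd y y' (0, 1) ≠ 0) : OnL y (xw y y') (y 1 / y 0) := fun j => by
  fin_cases j <;> simp [uu, vv, xw] <;> field_simp <;> simp only [wd] <;> ring

theorem xw_swap : xw y' y = xw y y' := by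
  have h : ∀ ij, wd y' y ij = -wd y y' ij := fun ij => by simp only [wd]; ring
  simp only [xw, h, neg_div_neg_eq]

theorem map_xw {L : Type} [Field L] (ρ : K →+* L) (j : Fin 4) :
    ρ (xw y y' j) = xw (fun i => ρ (y i)) (fun i => ρ (y' i)) j := by
  fin_cases j <;> simp [xw, wd]

variable [Algebra ℂ K]

theorem exists_fac {A Q : Type} [Field A] [Field Q] [Algebra ℂ A] [Algebra ℂ Q] (j : Q →ₐ[ℂ] K)
    (α : A →ₐ[ℂ] K) (h : ∀ z, α z ∈ j.range) : ∃ e : A →ₐ[ℂ] Q, j.comp e = α :=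
  ⟨(AlgEquiv.ofInjective j j.injective).symm.toAlgHom.comp (α.codRestrict j.range h),
    AlgHom.ext fun z => congrArg Subtype.val
      ((AlgEquiv.ofInjective j j.injective).apply_symm_apply ⟨α z, h z⟩)⟩

theorem li_y (hΓ : Γ.IsHomogeneous 4) (S : Hyp 3 Γ K) : LinearIndependent ℂ ![S.y 0, S.y 1] := by
  refine LinearIndependent.pair_iff.2 fun a b h => ?_
  have h1 : (C a * X 0 + C b * X 1 : MvPolynomial (Fin 4) ℂ).IsHomogeneous 1 :=
    (isHomogeneous_C_mul_X a 0).add (isHomogeneous_C_mul_X b 1)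
  have h2 := (S.ker _ _ h1).1 (by simpa [Algebra.smul_def] using h)
  have h3 : (C a * X 0 + C b * X 1 : MvPolynomial (Fin 4) ℂ) = 0 := by_contra fun h0 => by
    have h4 := (totalDegree_le_of_dvd_of_isDomain h2 h0).trans h1.totalDegree_le
    rw [hΓ.totalDegree (ne_zero_of_dvd_ne_zero h0 h2)] at h4
    omega
  exact ⟨by simpa using congrArg (eval ![1, 0, 0, 0]) h3,
    by simpa using congrArg (eval ![0, 1, 0, 0]) h3⟩

end Two

section Core

variable {F E F' L Ω : Type} [Field F] [Field E] [Field F'] [Field L] [Field Ω] [Algebra ℂ F]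
  [Algebra ℂ E] [Algebra ℂ F'] [Algebra ℂ L] [Algebra ℂ Ω] [Algebra E F'] [Algebra E L]
  [Algebra E Ω] [IsScalarTower ℂ E F'] [IsScalarTower ℂ E L] [IsScalarTower ℂ E Ω]
  [Algebra.EssFiniteType ℂ F] [FiniteDimensional E Ω] [IsGalois E Ω] [Fintype (F' →ₐ[E] Ω)]
  {S : Hyp 3 Γ F} {x : Fin 4 → E} {ι : F →ₐ[ℂ] F'} {s : F'} {κ κ' : F' →ₐ[E] L}
  {τ : L →ₐ[E] L}

theorem exists_lift (hd : dim ℂ F = 2) (hi : AlgebraicIndependent ℂ x)
    (hx : adjoin ℂ (range x) = ⊤) (hs : adjoin E {s} = ⊤)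
    (hy : OnL (fun j => ι (S.y j)) (fun j => algebraMap E F' (x j)) s)
    (hPF : IsPF ((sh ℂ κ).comp ι) ((sh ℂ κ').comp ι)) {p q : F' →ₐ[E] Ω} (hpq : p ≠ q) :
    ∃ ρ : L →ₐ[E] Ω, ρ.comp κ = p ∧ ρ.comp κ' = q := by
  have := eft_of_top hx
  have : CharZero E := charZero_of_injective_algebraMap (algebraMap ℂ E).injective
  have : Algebra.EssFiniteType ℂ Ω := .comp ℂ E Ω
  have h0 : ∀ r : F' →ₐ[E] Ω, ((sh ℂ r).comp ι) (S.y 0) ≠ 0 := fun r => (map_ne_zero _).2 (S.y_ne 0)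
  have hne : p s ≠ q s := fun h => hpq (sh_inj hs h)
  have h1 := coord_of_two (onL_sh hy p) (onL_sh hy q) (h0 p) (h0 q) hne
  have h2 := inj_of_gen ((sh ℂ p).comp ι) ((sh ℂ q).comp ι) (by
    rw [Loc.dim_tower ℂ E Ω, dim_of_ind hi hx, Loc.dim_eq_zero_iff.2 inferInstance, hd])
    fun D h3 h4 => alg_of_mem (K := E) (mem_of_top hx (inc ℂ E Ω) (by
      have h5 : p s ∈ D := ((onL_sh hy p).div (h0 p)).1 ▸ div_mem (h3 _) (h3 _)
      have h6 : q s ∈ D := ((onL_sh hy q).div (h0 q)).1 ▸ div_mem (h4 _) (h4 _)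
      rintro _ ⟨j, rfl⟩
      rw [show inc ℂ E Ω (x j) = _ from congrFun h1 j]
      fin_cases j
      exacts [div_mem (sub_mem (div_mem (h3 _) (h3 _)) (div_mem (h4 _) (h4 _))) (sub_mem h5 h6),
        div_mem (sub_mem (div_mem (h3 _) (h3 _)) (div_mem (h4 _) (h4 _))) (sub_mem h5 h6),
        div_mem (sub_mem (mul_mem h6 (div_mem (h3 _) (h3 _))) (mul_mem h5 (div_mem (h4 _) (h4 _))))
          (sub_mem h5 h6),
        div_mem (sub_mem (mul_mem h6 (div_mem (h3 _) (h3 _))) (mul_mem h5 (div_mem (h4 _) (h4 _))))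
          (sub_mem h5 h6)]))
  let ρ := Cns.pfLift hPF _ _ h2
  have h3 := (onL_sh hy κ).map (ρ : L →+* Ω)
  have h4 := (onL_sh hy κ').map (ρ : L →+* Ω)
  simp only [RingHom.coe_coe, ρ, Cns.pfLift_left] at h3
  simp only [RingHom.coe_coe, ρ, Cns.pfLift_right] at h4
  have h5 := (h3.div (h0 p)).1.symm.trans ((onL_sh hy p).div (h0 p)).1
  have h6 := (h4.div (h0 q)).1.symm.trans ((onL_sh hy q).div (h0 q)).1
  rw [h5] at h3
  rw [h6] at h4
  have h7 : ρ.comp (inc ℂ E L) = inc ℂ E Ω := ext_of_top hx (by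
    rintro _ ⟨j, rfl⟩
    exact congrFun ((coord_of_two h3 h4 (h0 p) (h0 q) hne).trans h1.symm) j)
  exact ⟨⟨ρ, DFunLike.congr_fun h7⟩, sh_inj hs h5, sh_inj hs h6⟩

theorem fix_le (hs : adjoin E {s} = ⊤) (hPF : IsPF ((sh ℂ κ).comp ι) ((sh ℂ κ').comp ι))
    (h1 : τ.comp κ = κ') (h2 : τ.comp κ' = κ) (hne : κ ≠ κ') {ρ ρ' : L →ₐ[E] Ω}
    (H : ∀ p, (p = ρ.comp κ ∨ p = ρ.comp κ') ↔ ¬ (p = ρ'.comp κ ∨ p = ρ'.comp κ')) {a : L}
    (ha : τ a = a) : ∃ b, τ b = b ∧ ρ b = ρ' a := by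
  let T : IntermediateField E L := (AlgHom.equalizer τ (AlgHom.id E L)).toIntermediateField
    fun z hz => show τ z⁻¹ = z⁻¹ by rw [map_inv₀, show τ z = z from hz]
  have e1 : τ (κ s) = κ' s := DFunLike.congr_fun h1 s
  have e2 : τ (κ' s) = κ s := DFunLike.congr_fun h2 s
  have h3 : ∀ g ∈ (T.map ρ).fixingSubgroup, ∀ p, (p = ρ.comp κ ∨ p = ρ.comp κ') →
      (g • p = ρ.comp κ ∨ g • p = ρ.comp κ') := fun g hg p hp => by
    rw [IntermediateField.mem_fixingSubgroup_iff] at hg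
    have h4 := hg _ ⟨κ s + κ' s, show τ _ = _ by rw [map_add, e1, e2, add_comm]; rfl, rfl⟩
    have h5 := hg _ ⟨κ s * κ' s, show τ _ = _ by rw [map_mul, e1, e2, mul_comm]; rfl, rfl⟩
    change g (ρ _) = ρ _ at h4 h5
    simp only [map_add, map_mul] at h4 h5
    have h6 : (g (p s) - ρ (κ s)) * (g (p s) - ρ (κ' s)) = 0 := by
      rcases hp with rfl | rfl <;> rw [AlgHom.comp_apply]
      · linear_combination g (ρ (κ s)) * h4 - h5
      · linear_combination g (ρ (κ' s)) * h4 - h5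
    exact (mul_eq_zero.1 h6).imp (fun h => sh_inj hs (sub_eq_zero.1 h))
      fun h => sh_inj hs (sub_eq_zero.1 h)
  have hx : ∀ α β : L →ₐ[E] Ω, α.comp κ = β.comp κ → α.comp κ' = β.comp κ' → α a = β a :=
    fun α β e e' => DFunLike.congr_fun (Cns.pf_ext hPF (γ := sh ℂ α) (γ' := sh ℂ β)
      (fun z => DFunLike.congr_fun e (ι z)) fun z => DFunLike.congr_fun e' (ι z)) a
  suffices h : ρ' a ∈ T.map ρ from h
  rw [← IsGalois.fixedField_fixingSubgroup (T.map ρ), IntermediateField.mem_fixedField_iff]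
  intro g hg
  have h7 : ∀ p, (p = ρ'.comp κ ∨ p = ρ'.comp κ') → (g • p = ρ'.comp κ ∨ g • p = ρ'.comp κ') :=
    fun p hp => by_contra fun h => (H p).1
      (inv_smul_smul g p ▸ h3 g⁻¹ (inv_mem hg) _ ((H _).2 h)) hp
  have h8 : g • ρ'.comp κ ≠ g • ρ'.comp κ' := fun h => hne (AlgHom.ext fun z =>
    ρ'.injective (DFunLike.congr_fun (MulAction.injective g h) z))
  rcases h7 _ (.inl rfl) with e | e <;> rcases h7 _ (.inr rfl) with e' | e'
  · exact absurd (e.trans e'.symm) h8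
  · exact hx (g • ρ') ρ' e e'
  · refine (hx (g • ρ') (ρ'.comp τ) ?_ ?_).trans (congrArg ρ' ha)
    · rw [AlgHom.comp_assoc, h1]
      exact e
    · rw [AlgHom.comp_assoc, h2]
      exact e'
  · exact absurd (e.trans e'.symm) h8

theorem core (hP : PicStmt) (hΓ : Γ.IsHomogeneous 4) (hN : NoL Γ) (hd : dim ℂ F = 2)
    (h4 : bnum [oP S.P, oP S.P] = 4) (hi : AlgebraicIndependent ℂ x)
    (hx : adjoin ℂ (range x) = ⊤) (hs : adjoin E {s} = ⊤)
    (hy : OnL (fun j => ι (S.y j)) (fun j => algebraMap E F' (x j)) s)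
    (hPF : IsPF ((sh ℂ κ).comp ι) ((sh ℂ κ').comp ι)) (h1 : τ.comp κ = κ') (h2 : τ.comp κ' = κ)
    (hne : κ ≠ κ') (ρ : L →ₐ[E] Ω) {Q : Type} [Field Q] [Algebra ℂ Q] (j : Q →ₐ[ℂ] L)
    (hj : ∀ z, τ z = z ↔ z ∈ j.range) : ∃ σ : Q ≃ₐ[ℂ] Q, ∀ γ : BD ℂ Q,
      pb j γ = pb (inc ℂ E L) (mx1 ℂ (p5 x)) → pb (σ : Q →ₐ[ℂ] Q) γ = γ ∧ ∀ c ∈ On S.P,
        ∀ C : BD ℂ Q, pb j C = pb ((sh ℂ κ).comp ι) c + pb ((sh ℂ κ').comp ι) c →
          Lin (C + pb (σ : Q →ₐ[ℂ] Q) C) (bnum [c, oP S.P] • γ) := by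
  classical
  have hI : Fintype.card (F' →ₐ[E] Ω) = 4 := by
    rw [← Nat.card_eq_fintype_card, card_sh (ρ.comp κ),
      (deg_test hΓ hN hd h4 hi hx hs hy (ρ.comp κ)).1]
  have h3 : ρ.comp κ ≠ ρ.comp κ' := fun h => hne (AlgHom.ext fun z =>
    ρ.injective (DFunLike.congr_fun h z))
  obtain ⟨p, q, hpq, h5⟩ := Finset.card_eq_two.1
    (show ({ρ.comp κ, ρ.comp κ'}ᶜ : Finset (F' →ₐ[E] Ω)).card = 2 by
      rw [Finset.card_compl, hI, Finset.card_pair h3])
  obtain ⟨ρ', rfl, rfl⟩ := exists_lift hd hi hx hs hy hPF hpq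
  have H : ∀ p, (p = ρ.comp κ ∨ p = ρ.comp κ') ↔ ¬ (p = ρ'.comp κ ∨ p = ρ'.comp κ') := fun p => by
    have h6 := Finset.ext_iff.1 h5 p
    simp only [Finset.mem_compl, Finset.mem_insert, Finset.mem_singleton] at h6
    rw [← h6, not_not]
  obtain ⟨σ, hσ⟩ := exists_fac ((sh ℂ ρ).comp j) ((sh ℂ ρ').comp j) fun z => by
    obtain ⟨b, hb, e⟩ := fix_le hs hPF h1 h2 hne H ((hj _).2 ⟨z, rfl⟩)
    obtain ⟨b, rfl⟩ := (hj b).1 hb
    exact ⟨b, e⟩
  have hσ' : Function.Surjective σ := fun z => by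
    obtain ⟨b, hb, e⟩ := fix_le hs hPF h1 h2 hne (fun p => iff_not_comm.1 (H p)) ((hj _).2 ⟨z, rfl⟩)
    obtain ⟨b, rfl⟩ := (hj b).1 hb
    exact ⟨b, ((sh ℂ ρ).comp j).injective ((DFunLike.congr_fun hσ b).trans e)⟩
  obtain ⟨e, he⟩ := exists_fac j (inc ℂ E L) fun z => (hj _).1 (τ.commutes z)
  have h7 : ∀ a : BD ℂ Q, pb ((sh ℂ ρ).comp j) (pb σ a) = pb (sh ℂ ρ') (pb j a) := fun a => by
    rw [pb_pb, pb_pb, hσ]
  refine ⟨AlgEquiv.ofBijective σ ⟨σ.injective, hσ'⟩, fun γ hγ =>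
    ⟨pb_injective ((sh ℂ ρ).comp j) ((h7 γ).trans ?_), fun c hc C hC => ?_⟩⟩
  · rw [← pb_pb, hγ, pb_sh_inc, pb_sh_inc]
  · have h8 : γ = pb e (mx1 ℂ (p5 x)) := pb_injective j (by rw [hγ, pb_pb, he])
    have h9 : C + pb σ C = pb e (nm E Ω (pb ι c)) := pb_injective ((sh ℂ ρ).comp j) (by
      rw [map_add, h7, ← pb_pb, ← pb_pb, hC, pb_pb j, he, pb_sh_inc, pb_nm,
        ← Finset.sum_add_sum_compl {ρ.comp κ, ρ.comp κ'}, h5, Finset.sum_pair h3,
        Finset.sum_pair hpq]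
      simp only [map_add, pb_pb]
      rfl)
    rw [h8, ← map_zsmul]
    exact h9 ▸ (nm_lin hP hΓ hN hd h4 hi hx hs hy (ρ.comp κ) hc).pb e

end Core

theorem bv_of (hP : PicStmt) (hD : DegStmt) : BvStmt := by
  intro Γ F L Q _ _ _ _ _ _ _ S ι τ j hq hN hPF hτ hj
  obtain ⟨hd, h4⟩ := hD Γ F S hq
  have hΓ := hq.1
  have := Wd.essFT_pf hPF
  let y : Fin 4 → L := fun i => ι (S.y i)
  let y' : Fin 4 → L := fun i => τ (ι (S.y i))
  have h0 : y 0 ≠ 0 := (map_ne_zero ι).2 (S.y_ne 0)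
  have h0' : y' 0 ≠ 0 := (map_ne_zero τ).2 h0
  have hw : wd y y' (0, 1) ≠ 0 := fun h => by
    have h1 : ((0, 1) : Fin 2 × Fin 2) = (1, 0) :=
      (hPF.indep (li_y hΓ S) (li_y hΓ S)).injective (sub_eq_zero.1 h)
    simp at h1
  have hy : OnL y (xw y y') (y 1 / y 0) := onL_xw h0 hw
  have hy' : OnL y' (xw y y') (y' 1 / y' 0) := xw_swap (y := y) (y' := y') ▸ onL_xw h0' fun h =>
    hw (by simp only [wd] at h ⊢; linear_combination -h)
  let E := adjoin ℂ (range (xw y y'))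
  let x : Fin 4 → E := fun i => ⟨xw y y' i, IntermediateField.subset_adjoin _ _ ⟨i, rfl⟩⟩
  have hx : adjoin ℂ (range x) = ⊤ := adjoin_sub _
  have hmem : ∀ (α : F →ₐ[ℂ] L) (s : L), OnL (fun i => α (S.y i)) (xw y y') s →
      ∀ D : IntermediateField E L, s ∈ D → ∀ z, α z ∈ D := fun α s h D hs =>
    mem_of_top (adjoin_y S) α (D := D.restrictScalars ℂ) (by
      rintro _ ⟨i, rfl⟩
      rw [map_div₀, show α (S.y i) = _ from h i,
        mul_div_cancel_left₀ _ ((map_ne_zero α).2 (S.y_ne 0)), Pi.add_apply, Pi.smul_apply,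
        smul_eq_mul]
      exact add_mem (map_uu (algebraMap E L) x i ▸ D.algebraMap_mem _)
        (mul_mem hs (map_vv (algebraMap E L) x i ▸ D.algebraMap_mem _)))
  have halg : ∀ (α : F →ₐ[ℂ] L) (s : L), OnL (fun i => α (S.y i)) (xw y y') s →
      ∀ z, α z ∈ algebraicClosure E L := fun α s h => hmem α s h _ (mem_algebraicClosure_iff.2
    ⟨lnP Γ (uu x) (vv x), lnP_ne hN hΓ (not_par x), by
      rw [aeval_lnP]
      simp only [map_uu, map_vv]
      exact root_of hΓ h⟩)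
  have : Algebra.IsAlgebraic E L := ⟨fun z => mem_algebraicClosure_iff.1
    (mem_of_top hPF.adjoin_eq (AlgHom.id ℂ L) (D := (algebraicClosure E L).restrictScalars ℂ) (by
      rintro _ (⟨z, rfl⟩ | ⟨z, rfl⟩)
      exacts [halg ι _ hy z, halg (τ.comp ι) _ hy' z]) z)⟩
  have : FiniteDimensional E L := Algebra.finite_of_essFiniteType_of_isAlgebraic
  have hi : AlgebraicIndependent ℂ x := AlgebraicIndependent.of_comp E.val (by
    have := IntermediateField.isAlgebraic_adjoin_iff_top.1 ‹Algebra.IsAlgebraic E L›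
    refine (Algebra.IsAlgebraic.isTranscendenceBasis_of_le_trdeg_of_finite ℂ (xw y y') ?_).1
    rw [trdeg_eq_dim, Wd.dim_pf hPF, hd]
    simp)
  have hτE : τ.comp E.val = E.val := ext_of_top hx (by
    rintro _ ⟨i, rfl⟩
    refine (map_xw (τ : L →+* L) i).trans ?_
    simp only [RingHom.coe_coe, y', hτ]
    exact congrFun xw_swap i)
  let τ' : L →ₐ[E] L := ⟨τ, DFunLike.congr_fun hτE⟩
  let F' := adjoin E (range fun _ : Unit => y 1 / y 0)
  have hs0 : y 1 / y 0 ∈ F' := IntermediateField.subset_adjoin _ _ ⟨(), rfl⟩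
  have hs : adjoin E {(⟨_, hs0⟩ : F')} = ⊤ :=
    (congrArg (adjoin E) Set.range_const.symm).trans (adjoin_sub (k := E) fun _ : Unit => y 1 / y 0)
  obtain ⟨ι', hι⟩ := exists_fac (sh ℂ F'.val) ι fun z => ⟨⟨ι z, hmem ι _ hy F' hs0 z⟩, rfl⟩
  have hι' : (sh ℂ (τ'.comp F'.val)).comp ι' = τ.comp ι := by rw [← hι]; rfl
  obtain ⟨Ω, _, _, ⟨ρ⟩⟩ := exists_closure E L
  have : Finite (F' →ₐ[E] Ω) := inferInstance
  let _ := Fintype.ofFinite (F' →ₐ[E] Ω)
  obtain ⟨σ, hσ⟩ := core (S := S) (ι := ι') (κ := F'.val) (κ' := τ'.comp F'.val) (τ := τ') hP hΓ hN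
    hd h4 hi hx hs
    (fun i => Subtype.ext (by
      have h1 : ∀ i, (ι' (S.y i) : L) = y i := fun i => DFunLike.congr_fun hι (S.y i)
      change (ι' (S.y i) : L) = ι' (S.y 0) * (F'.val (uu _ i) + y 1 / y 0 * F'.val (vv _ i))
      rw [h1, h1, show F'.val _ = _ from map_uu (F'.val : F' →+* L) _ i,
        show F'.val _ = _ from map_vv (F'.val : F' →+* L) _ i]
      exact hy i))
    (by rw [hι, hι']; exact hPF) rfl (AlgHom.ext fun z => hτ z)
    (fun h => hw (by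
      have h1 : y 1 / y 0 = τ (y 1 / y 0) := DFunLike.congr_fun h ⟨_, hs0⟩
      rw [wd_onL hy hy', show y' 1 / y' 0 = y 1 / y 0 from (h1.trans (map_div₀ τ _ _)).symm,
        sub_self, mul_zero, zero_mul]))
    ρ j hj
  refine ⟨σ, fun γ hγ => ?_⟩
  rw [hι, hι'] at hσ
  refine hσ γ (hγ.trans ?_)
  have h2 := wd_onL hy hy'
  have h3 : wd y y' (0, 1) = y 0 * y' 0 * (y' 1 / y' 0 - y 1 / y 0) := by rw [h2, wd_eq]; simp
  rw [← h3] at h2
  rw [pb_mx1, show (fun i => inc ℂ E L (p5 x i)) = _ from funext (map_p5 (algebraMap E L) x),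
    ← mxf_wd, sub_eq_iff_eq_add]
  exact (congrArg (mxf ℂ) (funext h2)).trans (mxf_mul ⟨(0, 1), by simp [wd_eq]⟩ hw)

end Crest.Agent.X262.Bv3
end
end

-- ▼ part X262/Pic28/Main

/-!
# Row 262, G4 / START (helper28): the Picard group of the Plücker quadric

* `rho_of_ufd` : a model with factorial charts and a prime hyperplane section has `Pic = ℤ H`;
* `hyp_rel`    : the relations of a chart of a hypersurface;
* `picStmt : St91.PicStmt`.
-/

set_option autoImplicit false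

noncomputable section

namespace Crest.Agent.X262.Pic28

open Crest.Agent.X277 Crest.Agent.X277.Lef Crest.Agent.X277.AN.G1 Crest.Agent.X277.BD
open Crest.Agent.X277.BD.Br MvPolynomial Crest.Agent.X262.Fano

variable {F : Type} [Field F] [Algebra ℂ F] {P : PModel ℂ F} {a : BD ℂ F} {i : Fin (P.N + 1)}

/-- a Cartier divisor is principal on a factorial chart -/
theorem exists_gen_chart [UniqueFactorizationMonoid (P.A i)] (ha : a ∈ On P) :
    ∃ g : F, ∀ x ∈ pat P i, At a x g := by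
  classical
  suffices h : ∀ a ∈ On P, Free a → ∃ g : F, ∀ x ∈ pat P i, At a x g by
    obtain ⟨c, hc, N, h1, rfl⟩ := exists_sub_On ha
    obtain ⟨g, hg⟩ := h c hc h1
    exact ⟨_, fun x hx => (hg x hx).sub ((at_y hx).nsmul N)⟩
  intro a ha hf
  obtain ⟨r, s, h0, h1, rfl⟩ := exists_gn ha hf
  choose e he c hc hc0 h2 using fun j => P.frac' i (s j)
  have hq : ∏ j, c j ≠ 0 := Finset.prod_ne_zero_iff.2 fun j _ => hc0 j
  have h3 : ∀ j, s j * ∏ j, c j ∈ P.A i := fun j => by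
    rw [← Finset.mul_prod_erase _ c (Finset.mem_univ j), ← mul_assoc, h2 j,
      div_mul_cancel₀ _ (hc0 j)]
    exact mul_mem (he j) (prod_mem fun l _ => hc l)
  have hp0 : ∀ j, (⟨_, h3 j⟩ : P.A i) ≠ 0 := fun j h =>
    mul_ne_zero (h0 j) hq (congrArg Subtype.val h)
  obtain ⟨g, q, h4, h5⟩ := exists_red 0 (fun j => (⟨_, h3 j⟩ : P.A i)) (hp0 0)
  have hg : (g : F) ≠ 0 := fun h => hp0 0 (by rw [h4, show g = 0 from Subtype.ext h, zero_mul])
  have h6 : ∀ j, s j = q j * (g / ∏ j, c j) := fun j => by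
    rw [← mul_div_assoc, mul_comm, eq_div_iff hq]
    exact congrArg Subtype.val (h4 j)
  refine ⟨g / ∏ j, c j, fun x hx => ?_⟩
  obtain ⟨j, hj, h7⟩ := h1 x
  refine (at_mxf hj h7).of_ev ?_
  rw [h6 j, mul_div_cancel_right₀ _ (div_ne_zero hg hq), ev_chr hx]
  intro h8
  have hq0 : q j ≠ 0 := fun h => hp0 j (by rw [h4, h, mul_zero])
  obtain ⟨π, hπ, h9, h10⟩ := exists_prime_ker (chr i x hx : P.A i →+* ℂ) hq0 h8
  obtain ⟨l, hl⟩ := h5 π hπ
  obtain ⟨u, hu, v, hv, h11, h12⟩ := (mem_lp_iff hx).1 (h7 l)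
  lift u to P.A i using hu
  lift v to P.A i using hv
  have h13 : q l * v = u * q j := Subtype.ext (by
    have h14 : (q j : F) ≠ 0 := fun h => hq0 (Subtype.ext h)
    rw [Subalgebra.coe_mul, Subalgebra.coe_mul, ← h12, h6 l, h6 j,
      mul_div_mul_right _ _ (div_ne_zero hg hq)]
    field_simp)
  rcases hπ.dvd_or_dvd (h13 ▸ h9.mul_left u : π ∣ q l * v) with h | ⟨t, rfl⟩
  · exact hl h
  · exact h11 (by rw [ev_chr hx, map_mul, show chr i x hx π = 0 from h10, zero_mul])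

/-- a divisor which is trivial on the chart `0` is a multiple of the hyperplane section -/
theorem exists_exp [UniqueFactorizationMonoid (P.A i)] (hp : Prime (gen P i 0)) (ha : a ∈ On P)
    (h0 : ∀ x ∈ pat P 0, At a x 1) : ∃ e : ℤ, ∀ x ∈ pat P i, At a x ((P.y 0 / P.y i) ^ e) := by
  obtain ⟨g, hg⟩ := exists_gen_chart (i := i) ha
  have hc0 : P.y 0 / P.y i ≠ 0 := div_ne_zero (P.y_ne _) (P.y_ne _)
  have h1 : ∀ V : RZ ℂ F, (∀ y ∈ P.A i, y ∈ V.1) → (P.y 0 / P.y i)⁻¹ ∈ V.1 → V.v g = 1 := by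
    intro V hV hi
    obtain ⟨x, hx, h2⟩ := Cns.exists_ov_of_le hV
    obtain ⟨x', hx', h3⟩ := Cns.exists_ov_of_le (P := P) (i := 0) (V := V.1)
      (V.2.adjoin_le (by
        rintro _ ⟨j, rfl⟩
        have h4 := mul_mem (hV _ (div_mem_chart P.y i j)) hi
        rwa [inv_div, div_mul_div_cancel₀ (P.y_ne _)] at h4))
    rw [hg x hx V h2, ← h0 x' hx' V h3, map_one]
  have h2 : ∀ f : F, (∀ V : RZ ℂ F, (∀ y ∈ P.A i, y ∈ V.1) →
      (P.y 0 / P.y i)⁻¹ ∈ V.1 → V.v f ≤ 1) →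
      ∃ (N : ℕ) (p : P.A i), (p : F) = (P.y 0 / P.y i) ^ N * f := by
    intro f hf
    obtain ⟨N, hN⟩ := exists_pow_mem (k := ℂ) (S := P.A i) (f := f)
      (div_mem_chart P.y i 0) fun V hV hi => RZ.le_one_iff.1 (hf V hV hi)
    exact ⟨N, ⟨_, mem_A_iff.2 fun x hx => mem_lp_iff'.2 fun V hV =>
      RZ.le_one_iff.2 (hN V fun y hy => hV y (A_le hx hy))⟩, rfl⟩
  obtain ⟨N, p, hp'⟩ := h2 g fun V hV hi => (h1 V hV hi).le
  obtain ⟨M, q, hq⟩ := h2 g⁻¹ fun V hV hi => by rw [map_inv₀, h1 V hV hi, inv_one]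
  obtain ⟨x0, hx0, -⟩ := exists_ev_ne (P := P) (i := i) (one_mem _) one_ne_zero
  have hg0 := (hg x0 hx0).ne
  have h3 : gen P i 0 ^ (N + M) = p * q := Subtype.ext (by
    change (P.y 0 / P.y i) ^ (N + M) = (p : F) * q
    rw [hp', hq, pow_add]
    field_simp)
  obtain ⟨k, -, u, hu⟩ := (dvd_prime_pow hp _).1 ⟨q, h3⟩
  refine ⟨(k : ℤ) - N, fun x hx => ?_⟩
  have h4 : (p : F) * (u : P.A i) = (P.y 0 / P.y i) ^ k := congrArg Subtype.val hu
  have h5 := (hg x hx).mul_unit (f := ((u : P.A i) : F)) (by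
    rw [ev_chr hx]
    exact (u.isUnit.map _).ne_zero)
  convert h5 using 1
  rw [zpow_sub₀ hc0, zpow_natCast, zpow_natCast, ← h4, hp']
  field_simp

/-- **factorial charts and a prime hyperplane section** -/
theorem rho_of_ufd (hU : ∀ i, UniqueFactorizationMonoid (P.A i))
    (hp : ∀ l : Fin P.N, Prime (gen P l.succ 0)) {x0 : Pts P} (h1 : ∀ l : Fin P.N, x0 ∈ pat P l.succ)
    (h2 : x0 ∉ pat P 0) (ha : a ∈ On P) : ∃ c : ℤ, Lin a (c • oP P) := by
  obtain ⟨g, hg⟩ := exists_gen_chart (i := 0) ha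
  obtain ⟨x1, hx1, -⟩ := exists_ev_ne (P := P) (i := 0) (one_mem _) one_ne_zero
  have hg0 := (hg x1 hx1).ne
  have h0 : ∀ x ∈ pat P 0, At (a - pr ℂ g) x 1 := fun x hx => by
    simpa only [div_self hg0] using (hg x hx).sub (at_pr x hg0)
  choose e he using fun l => exists_exp (hp l) (sub_mem ha (pr_mem g)) h0
  have h3 : ∀ l l', e l = e l' := by
    intro l l'
    obtain ⟨V, hV, hd⟩ := Br.exists_dom x0
    have h5 := (he l x0 (h1 l) V hV).trans (he l' x0 (h1 l') V hV).symm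
    rw [map_zpow₀, map_zpow₀, map_div₀ V.v _ (P.y l'.succ),
      v_eq_of_ev ((mem_pat_iff (h1 l)).1 (h1 l')) hV, ← map_div₀] at h5
    refine (zpow_right_inj₀ (RZ.pos (div_ne_zero (P.y_ne _) (P.y_ne _))) fun h => ?_).1 h5
    exact h2 ((mem_pat_iff (h1 l)).2 ((hd _ (y_mem (h1 l) 0)).1 h))
  obtain ⟨c, hc⟩ : ∃ c : ℤ, ∀ l, e l = c := by
    by_cases h : Nonempty (Fin P.N)
    · exact ⟨e h.some, fun l => h3 _ _⟩
    · exact ⟨0, fun l => absurd ⟨l⟩ h⟩
  have h4 : g * P.y 0 ^ c ≠ 0 := mul_ne_zero hg0 (zpow_ne_zero _ (P.y_ne 0))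
  refine ⟨-c, _, h4, ext_at (P := P) fun x => ?_⟩
  obtain ⟨i, hi⟩ := exists_pat x
  refine ⟨_, ?_, ((at_y hi).zsmul (-c)).add (at_pr x h4)⟩
  have h5 : At (a - pr ℂ g) x ((P.y 0 / P.y i) ^ c) := by
    revert hi
    refine Fin.cases (fun hi => ?_) (fun l hi => hc l ▸ he l x hi) i
    rw [div_self (P.y_ne 0), one_zpow]
    exact h0 x hi
  have h6 := h5.add (at_pr x hg0)
  rw [sub_add_cancel] at h6
  convert h6 using 1
  rw [div_zpow, zpow_neg]
  field_simp

/-- the relations between the coordinates of a chart of a hypersurface -/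
theorem hyp_rel {N : ℕ} {G : MvPolynomial (Fin (N + 1)) ℂ} (Y : Top.Hyp N G F) {B : Type}
    [CommRing B] [Algebra ℂ B] {w : Fin (N + 1) → B} {i : Fin (N + 1)} (h1 : w i = 1)
    (h2 : aeval w G = 0) {q : MvPolynomial (Fin (N + 1)) ℂ}
    (hq : aeval (fun j => Y.y j / Y.y i) q = 0) : aeval w q = 0 := by
  let q' : MvPolynomial (Fin (N + 1)) ℂ := ∑ d ∈ Finset.range (q.totalDegree + 1),
    X i ^ (q.totalDegree - d) * homogeneousComponent d q
  have h3 : q'.IsHomogeneous q.totalDegree := IsHomogeneous.sum _ _ _ fun d hd => by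
    have h := ((isHomogeneous_X ℂ i).pow (q.totalDegree - d)).mul
      (homogeneousComponent_isHomogeneous d q)
    rwa [one_mul, Nat.sub_add_cancel (Nat.lt_succ_iff.1 (Finset.mem_range.1 hd))] at h
  have h4 : ∀ {B : Type} [CommRing B] [Algebra ℂ B] {w : Fin (N + 1) → B}, w i = 1 →
      aeval w q' = aeval w q := fun h => by
    conv_rhs => rw [← sum_homogeneousComponent q]
    simp only [q', map_sum, map_mul, map_pow, aeval_X, h, one_pow, one_mul]
  have h5 : aeval Y.y q' = 0 := by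
    have h6 := aeval_mul_hom h3 (Y.y i) fun j => Y.y j / Y.y i
    simp only [mul_div_cancel₀ _ (Y.y_ne i)] at h6
    rw [h6, h4 (div_self (Y.y_ne i)), hq, mul_zero]
  obtain ⟨r, hr⟩ := (Y.ker _ _ h3).1 h5
  rw [← h4 h1, hr, map_mul, h2, zero_mul]

/-- the free coordinates of the charts -/
def σ : Fin 6 → Fin 4 → Fin 6 :=
  ![![1, 2, 3, 4], ![0, 2, 3, 5], ![0, 1, 4, 5], ![0, 1, 4, 5], ![0, 2, 3, 5], ![1, 2, 3, 4]]

/-- the parametrisations of the charts -/
def w : Fin 6 → Fin 6 → MvPolynomial (Fin 4) ℂ :=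
  ![![1, X 0, X 1, X 2, X 3, X 0 * X 3 - X 1 * X 2], ![X 0, 1, X 1, X 2, X 0 * X 3 + X 1 * X 2, X 3],
    ![X 0, X 1, 1, X 1 * X 2 - X 0 * X 3, X 2, X 3], ![X 0, X 1, X 1 * X 2 - X 0 * X 3, 1, X 2, X 3],
    ![X 0, X 0 * X 3 + X 1 * X 2, X 1, X 2, 1, X 3], ![X 0 * X 3 - X 1 * X 2, X 0, X 1, X 2, X 3, 1]]

theorem w_self (i : Fin 6) : w i i = 1 := by fin_cases i <;> rfl

theorem w_σ (i : Fin 6) (l : Fin 4) : w i (σ i l) = X l := by fin_cases i <;> fin_cases l <;> rfl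

theorem w_plq (i : Fin 6) : aeval (w i) St91.plq = 0 := by
  fin_cases i <;> simp [St91.plq, w]

theorem prime_w (l : Fin 5) : Prime (w l.succ 0) := by
  have h : Prime (X 0 * X 3 - X 1 * X 2 : MvPolynomial (Fin 4) ℂ) := by
    rw [sub_eq_add_neg]
    refine (irreducible_mul_X_add _ _ 3 (X_ne_zero _) (by simp) (fun h => ?_)
      (X_prime.irreducible.isRelPrime_iff_not_dvd.2 fun ⟨c, hc⟩ => ?_)).prime
    · rw [vars_neg] at h
      simpa using vars_mul (R := ℂ) _ _ h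
    · simpa using congrArg (eval ![0, 1, 1, 0]) hc
  fin_cases l
  exacts [X_prime, X_prime, X_prime, X_prime, h]

theorem aeval_w (Y : Top.Hyp 5 St91.plq F) (i j : Fin 6) :
    aeval (fun l => Y.y (σ i l) / Y.y i) (w i j) = Y.y j / Y.y i := by
  have h := (Y.ker 2 _ ((((isHomogeneous_X ℂ 0).mul (isHomogeneous_X ℂ 5)).sub
    ((isHomogeneous_X ℂ 1).mul (isHomogeneous_X ℂ 4))).add
    ((isHomogeneous_X ℂ 2).mul (isHomogeneous_X ℂ 3)))).2 dvd_rfl
  simp only [map_add, map_sub, map_mul, aeval_X] at h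
  have h0 := Y.y_ne i
  fin_cases i <;> fin_cases j <;> simp [w, σ] at h0 ⊢ <;> field_simp <;>
    first | linear_combination h | linear_combination -h

/-- the charts are affine spaces -/
theorem exists_equiv (Y : Top.Hyp 5 St91.plq F) (i : Fin 6) :
    ∃ e : MvPolynomial (Fin 4) ℂ ≃ₐ[ℂ] Y.P.A i, ∀ j, e (w i j) = gen Y.P i j := by
  have h1 : Function.Injective (aeval (R := ℂ) fun l => Y.y (σ i l) / Y.y i) :=
    (injective_iff_map_eq_zero _).2 fun p hp => by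
      have h := hyp_rel Y (w_self i) (w_plq i) (q := rename (σ i) p) (by rwa [aeval_rename])
      rwa [aeval_rename, show w i ∘ σ i = X from funext (w_σ i), aeval_X_left_apply] at h
  have h2 : (aeval fun l => Y.y (σ i l) / Y.y i).range = Y.P.A i := by
    refine le_antisymm ?_ (Algebra.adjoin_le ?_)
    · rw [← Algebra.adjoin_range_eq_range_aeval, Algebra.adjoin_le_iff]
      rintro _ ⟨l, rfl⟩
      exact div_mem_chart Y.y i _
    · rintro _ ⟨j, rfl⟩
      exact ⟨w i j, aeval_w Y i j⟩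
  exact ⟨(AlgEquiv.ofInjective _ h1).trans (Subalgebra.equivOfEq _ _ h2),
    fun j => Subtype.ext (aeval_w Y i j)⟩

/-- **the Picard group of `G(2,4)`** -/
theorem picStmt : St91.PicStmt := by
  intro E _ _ Y a ha
  choose e he using exists_equiv Y
  obtain ⟨x, hx, h⟩ := exists_pt (P := Y.P) (1 : Fin 6) ((aeval ![0, 1, 1, 1]).comp
    ((e 1).symm : Y.P.A (1 : Fin 6) →ₐ[ℂ] _))
  have h1 : ∀ j : Fin 6, x ∈ pat Y.P j ↔ aeval ![0, 1, 1, 1] (w 1 j) ≠ (0 : ℂ) := fun j => by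
    rw [mem_pat_iff hx]
    refine Iff.of_eq (congrArg (· ≠ 0) ((h (gen Y.P (1 : Fin 6) j)).trans ?_))
    rw [← he]
    simp
  refine rho_of_ufd (x0 := x) (fun i => (e i).toMulEquiv.uniqueFactorizationMonoid inferInstance)
    (fun l => he _ _ ▸ (MulEquiv.prime_iff (e l.succ)).2 (prime_w l)) (fun l => (h1 _).2 ?_)
    (fun h2 => (h1 0).1 h2 (by simp [w])) ha
  fin_cases l <;> simp [w]

end Crest.Agent.X262.Pic28
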